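import Vale.Agent.P232.Interfaces

/-!
# P232: from smooth strictly decreasing sorted functions to Lipschitz ones

A Lipschitz nonincreasing sorted function on the cube is extended by clamping, mollified with a
radially decreasing kernel and tilted by a multiple of `3 - x - y - z`.
-/

open MeasureTheory Set Filter
open scoped Topology NNReal Convolution

namespace Vale.Agent.P232.Smooth

/-- The nearest point of the cube. -/
def clampv (x : R3) : R3 := fun i => max 0 (min 1 (x i))

/-- The extension of a function on the cube by clamping. -/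
def ext (g : R3 → ℝ) : R3 → ℝ := g ∘ clampv

/-- A smooth bump which decreases in the Euclidean distance to the origin. -/
noncomputable def bump (r : ℝ) (x : R3) : ℝ :=
  Real.smoothTransition (2 - (∑ i, x i ^ 2) / r ^ 2)

/-- The normalised bump. -/
noncomputable def ker (r : ℝ) (x : R3) : ℝ := bump r x / ∫ y, bump r y

/-- The mollification. -/
noncomputable def moll (r : ℝ) (f : R3 → ℝ) : R3 → ℝ :=
  ker r ⋆[ContinuousLinearMap.lsmul ℝ ℝ, volume] f

theorem clampv_mem (x : R3) : clampv x ∈ cube :=
  ⟨fun _ => le_max_left _ _, fun _ => max_le zero_le_one (min_le_left _ _)⟩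

theorem clampv_eq {x : R3} (hx : x ∈ cube) : clampv x = x := by
  funext i
  show max 0 (min 1 (x i)) = x i
  rw [min_eq_right (show x i ≤ 1 from hx.2 i), max_eq_right (show (0 : ℝ) ≤ x i from hx.1 i)]

theorem clampv_mono {x y : R3} (h : x ≤ y) : clampv x ≤ clampv y :=
  fun i => max_le_max le_rfl (min_le_min le_rfl (h i))

theorem lipschitz_clampv : LipschitzWith 1 clampv := by
  refine LipschitzWith.of_dist_le_mul fun x y => ?_
  rw [NNReal.coe_one, one_mul]
  refine (dist_pi_le_iff dist_nonneg).2 fun i => le_trans ?_ (dist_le_pi_dist x y i)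
  have h := (((LipschitzWith.id (α := ℝ)).const_min 1).const_max 0).dist_le_mul (x i) (y i)
  simpa [clampv] using h

theorem lipschitz_ext {L : ℝ≥0} {g : R3 → ℝ} (hg : LipschitzWith L g) :
    LipschitzWith L (ext g) := by
  simpa [ext] using hg.comp lipschitz_clampv

theorem antitone_ext {g : R3 → ℝ} (hg : CubeAntitone g) : Antitone (ext g) :=
  fun _ _ h => hg (clampv_mem _) (clampv_mem _) (clampv_mono h)

theorem sorted_ext {g : R3 → ℝ} (hg : CubeSorted g) {i j : Fin 3} (hij : i < j) {p : R3}
    (hp : p i ≤ p j) : ext g p ≤ ext g (p ∘ Equiv.swap i j) := by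
  have h := hg _ (clampv_mem p) i j hij (max_le_max le_rfl (min_le_min le_rfl hp))
  exact h

theorem bump_nonneg (r : ℝ) (x : R3) : 0 ≤ bump r x := Real.smoothTransition.nonneg _

theorem contDiff_bump (r : ℝ) : ContDiff ℝ 1 (bump r) := by
  unfold bump
  exact Real.smoothTransition.contDiff.comp (by fun_prop)

theorem bump_eq_zero {r : ℝ} (hr : 0 < r) {x : R3} (hx : 2 * r < ‖x‖) : bump r x = 0 := by
  refine Real.smoothTransition.zero_of_nonpos ?_
  obtain ⟨i, hi⟩ : ∃ i, 2 * r < |x i| := by
    by_contra h
    simp only [not_exists, not_lt] at h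
    exact absurd hx (not_lt.2 ((pi_norm_le_iff_of_nonneg (by positivity)).2 fun i => h i))
  have h1 : 4 * r ^ 2 ≤ x i ^ 2 := by nlinarith [sq_abs (x i)]
  have h2 : x i ^ 2 ≤ ∑ k, x k ^ 2 :=
    Finset.single_le_sum (f := fun k => x k ^ 2) (fun k _ => sq_nonneg (x k)) (Finset.mem_univ i)
  rw [sub_nonpos, le_div_iff₀ (by positivity)]
  nlinarith

theorem hasCompactSupport_bump {r : ℝ} (hr : 0 < r) : HasCompactSupport (bump r) :=
  HasCompactSupport.intro (isCompact_closedBall (0 : R3) (2 * r)) fun x hx =>
    bump_eq_zero hr (by simpa [dist_zero_right] using hx)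

theorem integral_bump_pos {r : ℝ} (hr : 0 < r) : 0 < ∫ y, bump r y := by
  refine (contDiff_bump r).continuous.integral_pos_of_hasCompactSupport_nonneg_nonzero
    (hasCompactSupport_bump hr) (bump_nonneg r) (x := 0) ?_
  simp [bump, Real.smoothTransition.one_of_one_le]

theorem ker_nonneg (r : ℝ) (x : R3) : 0 ≤ ker r x :=
  div_nonneg (bump_nonneg r x) (integral_nonneg (bump_nonneg r))

theorem contDiff_ker (r : ℝ) : ContDiff ℝ 1 (ker r) := (contDiff_bump r).div_const _

theorem ker_eq_zero {r : ℝ} (hr : 0 < r) {x : R3} (hx : 2 * r < ‖x‖) : ker r x = 0 := by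
  simp [ker, bump_eq_zero hr hx]

theorem hasCompactSupport_ker {r : ℝ} (hr : 0 < r) : HasCompactSupport (ker r) :=
  HasCompactSupport.intro (isCompact_closedBall (0 : R3) (2 * r)) fun x hx =>
    ker_eq_zero hr (by simpa [dist_zero_right] using hx)

theorem integrable_ker {r : ℝ} (hr : 0 < r) : Integrable (ker r) :=
  (contDiff_ker r).continuous.integrable_of_hasCompactSupport (hasCompactSupport_ker hr)

theorem integral_ker {r : ℝ} (hr : 0 < r) : ∫ x, ker r x = 1 := by
  simp only [ker]
  rw [integral_div, div_self (integral_bump_pos hr).ne']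

theorem moll_apply (r : ℝ) (f : R3 → ℝ) (x : R3) : moll r f x = ∫ y, ker r y * f (x - y) := by
  simp only [moll, convolution_def, ContinuousLinearMap.lsmul_apply, smul_eq_mul]

theorem moll_apply' (r : ℝ) (f : R3 → ℝ) (x : R3) : moll r f x = ∫ y, ker r (x - y) * f y := by
  simp only [moll, convolution_lsmul_swap, smul_eq_mul]

theorem contDiff_moll {r : ℝ} (hr : 0 < r) {f : R3 → ℝ} (hf : Continuous f) :
    ContDiff ℝ 1 (moll r f) :=
  (hasCompactSupport_ker hr).contDiff_convolution_left (n := 1)
    (ContinuousLinearMap.lsmul ℝ ℝ) (contDiff_ker r) hf.locallyIntegrable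

theorem integrable_ker_mul {r : ℝ} (hr : 0 < r) {f : R3 → ℝ} (hf : Measurable f) {C : ℝ}
    (hC : ∀ y, |f y| ≤ C) : Integrable fun y => ker r y * f y :=
  (integrable_ker hr).mul_bdd hf.aestronglyMeasurable
    (Eventually.of_forall fun y => (Real.norm_eq_abs _).trans_le (hC y))

variable {r : ℝ} {f : R3 → ℝ} {L : ℝ≥0}

theorem integrable_moll (hr : 0 < r) (hf : LipschitzWith L f) (h01 : ∀ x, f x ∈ Icc (0 : ℝ) 1)
    (x : R3) : Integrable fun y => ker r y * f (x - y) :=
  integrable_ker_mul hr (hf.continuous.measurable.comp (measurable_const.sub measurable_id))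
    (C := 1) fun y => abs_le.2 ⟨by linarith [(h01 (x - y)).1], (h01 _).2⟩

theorem moll_mem (hr : 0 < r) (hf : LipschitzWith L f) (h01 : ∀ x, f x ∈ Icc (0 : ℝ) 1) (x : R3) :
    moll r f x ∈ Icc (0 : ℝ) 1 := by
  rw [moll_apply]
  refine ⟨integral_nonneg fun y => mul_nonneg (ker_nonneg r y) (h01 _).1, ?_⟩
  refine (integral_mono (integrable_moll hr hf h01 x) (integrable_ker hr) fun y => ?_).trans_eq
    (integral_ker hr)
  exact mul_le_of_le_one_right (ker_nonneg r y) (h01 _).2

theorem antitone_moll (hr : 0 < r) (hf : LipschitzWith L f) (h01 : ∀ x, f x ∈ Icc (0 : ℝ) 1)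
    (ha : Antitone f) : Antitone (moll r f) := by
  intro x y h
  rw [moll_apply, moll_apply]
  refine integral_mono (integrable_moll hr hf h01 y) (integrable_moll hr hf h01 x) fun z => ?_
  exact mul_le_mul_of_nonneg_left (ha (sub_le_sub_right h z)) (ker_nonneg r z)

theorem abs_moll_sub_le (hr : 0 < r) (hf : LipschitzWith L f) (h01 : ∀ x, f x ∈ Icc (0 : ℝ) 1)
    (x : R3) : |moll r f x - f x| ≤ L * (2 * r) := by
  have hc : Integrable fun y => ker r y * f x := (integrable_ker hr).mul_const _
  have e : moll r f x - f x = ∫ y, (ker r y * f (x - y) - ker r y * f x) := by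
    rw [integral_sub (integrable_moll hr hf h01 x) hc, moll_apply, integral_mul_const,
      integral_ker hr, one_mul]
  rw [e, ← Real.norm_eq_abs]
  refine (norm_integral_le_of_norm_le ((integrable_ker hr).mul_const (↑L * (2 * r)))
    (Eventually.of_forall fun y => ?_)).trans_eq (by rw [integral_mul_const, integral_ker hr, one_mul])
  rw [← mul_sub, norm_mul, Real.norm_of_nonneg (ker_nonneg r y)]
  rcases lt_or_ge (2 * r) ‖y‖ with hy | hy
  · simp [ker_eq_zero hr hy]
  · refine mul_le_mul_of_nonneg_left ((hf.norm_sub_le _ _).trans ?_) (ker_nonneg r y)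
    simpa using mul_le_mul_of_nonneg_left hy L.coe_nonneg

theorem mp_swap (i j : Fin 3) :
    MeasurePreserving (fun q : R3 => q ∘ Equiv.swap i j) (volume : Measure R3) volume := by
  have h := volume_preserving_arrowCongr' (Equiv.swap i j) (MeasurableEquiv.refl ℝ)
    (MeasurePreserving.id _)
  have e : (fun q : R3 => q ∘ Equiv.swap i j) =
      ⇑(MeasurableEquiv.arrowCongr' (Equiv.swap i j) (MeasurableEquiv.refl ℝ)) := by
    funext q k
    simp [MeasurableEquiv.arrowCongr', Equiv.arrowCongr', Equiv.arrowCongr]
  rw [e]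
  exact h

theorem bump_swap (i j : Fin 3) (x : R3) : bump r (x ∘ Equiv.swap i j) = bump r x := by
  simp only [bump, Function.comp_apply]
  rw [Equiv.sum_comp (Equiv.swap i j) fun k => x k ^ 2]

theorem ker_swap (i j : Fin 3) (x : R3) : ker r (x ∘ Equiv.swap i j) = ker r x := by
  simp [ker, bump_swap]

theorem swap_swap_apply (i j : Fin 3) (q : R3) :
    (q ∘ Equiv.swap i j) ∘ Equiv.swap i j = q := by
  funext k
  simp

theorem sum_sq_swap_sub (i j : Fin 3) (p q : R3) :
    (∑ k, (p - q ∘ Equiv.swap i j) k ^ 2) - ∑ k, (p - q) k ^ 2 =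
      2 * ((p i - p j) * (q i - q j)) := by
  fin_cases i <;> fin_cases j <;> simp [Fin.sum_univ_three, Equiv.swap_apply_def] <;> ring

theorem ker_swap_le (hr : 0 < r) (i j : Fin 3) (p q : R3) (h : 0 ≤ (p i - p j) * (q i - q j)) :
    ker r (p - q ∘ Equiv.swap i j) ≤ ker r (p - q) := by
  refine div_le_div_of_nonneg_right ?_ (integral_nonneg (bump_nonneg r))
  refine Real.smoothTransition.monotone (sub_le_sub_left ?_ _)
  exact div_le_div_of_nonneg_right (by linarith [sum_sq_swap_sub i j p q]) (sq_nonneg r)

theorem sorted_moll (hr : 0 < r) (hf : LipschitzWith L f) (h01 : ∀ x, f x ∈ Icc (0 : ℝ) 1)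
    {i j : Fin 3} (hs : ∀ q : R3, q i ≤ q j → f q ≤ f (q ∘ Equiv.swap i j)) {p : R3}
    (hp : p i ≤ p j) : moll r f p ≤ moll r f (p ∘ Equiv.swap i j) := by
  set S : R3 → R3 := fun q => q ∘ Equiv.swap i j with hS
  have hSm : Continuous S := by fun_prop
  let em : MeasurableEquiv R3 R3 :=
    { toFun := S
      invFun := S
      left_inv := swap_swap_apply i j
      right_inv := swap_swap_apply i j
      measurable_toFun := hSm.measurable
      measurable_invFun := hSm.measurable }
  have hmp : MeasurePreserving em volume volume := mp_swap i j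
  set h : R3 → ℝ := fun q => f (S q) - f q with hh
  have hint : ∀ F : R3 → ℝ, Continuous F → Integrable fun q => ker r (p - q) * F q := by
    intro F hF
    refine (((contDiff_ker r).continuous.comp (continuous_const.sub continuous_id)).mul
      hF).integrable_of_hasCompactSupport ?_
    exact ((hasCompactSupport_ker hr).comp_homeomorph
      (Homeomorph.subLeft p)).mul_right
  have hi1 : Integrable fun q => ker r (p - q) * h q :=
    hint h ((hf.continuous.comp hSm).sub hf.continuous)
  have e0 : moll r f (S p) = ∫ q, ker r (p - q) * f (S q) := by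
    rw [moll_apply', ← hmp.integral_comp' fun q => ker r (S p - q) * f q]
    refine integral_congr_ae (Eventually.of_forall fun q => ?_)
    show ker r (S p - S q) * f (S q) = _
    rw [show S p - S q = S (p - q) from rfl, ker_swap]
  have eD : moll r f (S p) - moll r f p = ∫ q, ker r (p - q) * h q := by
    rw [e0, moll_apply', ← integral_sub (hint (fun q => f (S q)) (hf.continuous.comp hSm))
      (hint _ hf.continuous)]
    exact integral_congr_ae (Eventually.of_forall fun q => (mul_sub _ _ _).symm)
  have hneg : ∀ q, h (S q) = -h q := fun q => by simp [hh, hS, swap_swap_apply]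
  have hi2 : Integrable fun q => ker r (p - S q) * h q := by
    have := (hmp.integrable_comp_emb em.measurableEmbedding).2 hi1
    refine this.neg.congr (Eventually.of_forall fun q => ?_)
    show -(ker r (p - S q) * h (S q)) = _
    rw [hneg]; ring
  have e2 : ∫ q, ker r (p - S q) * h q = -∫ q, ker r (p - q) * h q := by
    rw [← hmp.integral_comp' fun q => ker r (p - q) * h q, ← integral_neg]
    refine integral_congr_ae (Eventually.of_forall fun q => ?_)
    show _ = -(ker r (p - S q) * h (S q))
    rw [hneg]; ring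
  have hpos : 0 ≤ ∫ q, (ker r (p - q) * h q - ker r (p - S q) * h q) := by
    refine integral_nonneg fun q => ?_
    show 0 ≤ ker r (p - q) * h q - ker r (p - S q) * h q
    rw [← sub_mul]
    rcases le_total (q i) (q j) with hq | hq
    · exact mul_nonneg (sub_nonneg.2 (ker_swap_le hr i j p q
        (mul_nonneg_of_nonpos_of_nonpos (by linarith) (by linarith)))) (sub_nonneg.2 (hs q hq))
    · refine mul_nonneg_of_nonpos_of_nonpos ?_ ?_
      · have h2 := ker_swap_le hr i j p (S q) (mul_nonneg_of_nonpos_of_nonpos (by linarith)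
          (by simp [hS]; linarith))
        simp only [hS, swap_swap_apply] at h2
        exact sub_nonpos.2 h2
      · have h2 := hs (S q) (by simpa [hS] using hq)
        simp only [hS, swap_swap_apply] at h2
        exact sub_nonpos.2 h2
  rw [integral_sub hi1 hi2, e2] at hpos
  change moll r f p ≤ moll r f (S p)
  linarith

theorem abs_pd_le (hf : LipschitzWith L f) (i : Fin 3) (x : R3) : |pd f i x| ≤ L := by
  have h := (fderiv ℝ f x).le_of_opNorm_le (norm_fderiv_le_of_lipschitz ℝ hf) (Pi.single i 1)
  rwa [Pi.norm_single, norm_one, mul_one, Real.norm_eq_abs] at h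

theorem gradNorm_nonneg (f : R3 → ℝ) (x : R3) : 0 ≤ gradNorm f x := Real.sqrt_nonneg _

theorem gradNorm_le (hf : LipschitzWith L f) (x : R3) : gradNorm f x ≤ 2 * L := by
  have h : ∀ i, pd f i x ^ 2 ≤ (L : ℝ) ^ 2 := fun i =>
    sq_le_sq.2 (by simpa [abs_of_nonneg L.coe_nonneg] using abs_pd_le hf i x)
  refine (Real.sqrt_le_sqrt (Finset.sum_le_sum fun i _ => h i)).trans ?_
  refine Real.sqrt_le_iff.2 ⟨by positivity, ?_⟩
  simp only [Fin.sum_univ_three]
  nlinarith [sq_nonneg (L : ℝ)]

theorem measurable_pd (f : R3 → ℝ) (i : Fin 3) : Measurable (pd f i) :=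
  measurable_fderiv_apply_const ℝ f _

theorem measurable_gradNorm (f : R3 → ℝ) : Measurable (gradNorm f) :=
  (Finset.measurable_sum _ fun i _ => (measurable_pd f i).pow_const 2).sqrt

theorem pd_moll (hr : 0 < r) (hf : LipschitzWith L f) (h01 : ∀ x, f x ∈ Icc (0 : ℝ) 1)
    (i : Fin 3) (x : R3) : pd (moll r f) i x = ∫ y, ker r y * pd f i (x - y) := by
  have hae : ∀ᵐ y ∂(volume : Measure R3), DifferentiableAt ℝ f (x - y) :=
    ((volume : Measure R3).measurePreserving_sub_left x).quasiMeasurePreserving.ae
      hf.ae_differentiableAt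
  have hm : Measurable fun y => fderiv ℝ f (x - y) :=
    (measurable_fderiv ℝ f).comp (measurable_const.sub measurable_id)
  obtain ⟨hi, hd⟩ := hasFDerivAt_integral_of_dominated_loc_of_lip
    (F := fun z y => ker r y * f (z - y)) (F' := fun y => ker r y • fderiv ℝ f (x - y))
    (bound := fun y => ker r y * L) (μ := (volume : Measure R3)) (x₀ := x) univ_mem
    (Eventually.of_forall fun z => (integrable_moll hr hf h01 z).aestronglyMeasurable)
    (integrable_moll hr hf h01 x)
    ((contDiff_ker r).continuous.aestronglyMeasurable.smul hm.aestronglyMeasurable)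
    (Eventually.of_forall fun y => by
      refine LipschitzOnWith.of_dist_le_mul fun a _ b _ => ?_
      rw [Real.coe_nnabs, abs_of_nonneg (mul_nonneg (ker_nonneg r y) L.coe_nonneg)]
      simp only [dist_eq_norm, ← mul_sub, norm_mul, Real.norm_of_nonneg (ker_nonneg r y), mul_assoc]
      refine mul_le_mul_of_nonneg_left ?_ (ker_nonneg r y)
      simpa using hf.norm_sub_le (a - y) (b - y))
    ((integrable_ker hr).mul_const _)
    (hae.mono fun y hy => by
      have := (hy.hasFDerivAt.comp x ((hasFDerivAt_id x).sub_const y)).const_mul (ker r y)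
      simpa [ContinuousLinearMap.comp_id] using this)
  have e : moll r f = fun z => ∫ y, ker r y * f (z - y) := funext (moll_apply r f)
  rw [pd, e, hd.fderiv, ContinuousLinearMap.integral_apply hi]
  exact integral_congr_ae (Eventually.of_forall fun y => by simp [pd])

theorem gradNorm_moll_le (hr : 0 < r) (hf : LipschitzWith L f) (h01 : ∀ x, f x ∈ Icc (0 : ℝ) 1)
    (x : R3) : gradNorm (moll r f) x ≤ ∫ y, ker r y * gradNorm f (x - y) := by
  set c : Fin 3 → ℝ := fun i => pd (moll r f) i x with hc
  set N := gradNorm (moll r f) x with hN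
  set B := ∫ y, ker r y * gradNorm f (x - y) with hB
  have hB0 : 0 ≤ B := integral_nonneg fun y => mul_nonneg (ker_nonneg r y) (gradNorm_nonneg _ _)
  have hN0 : 0 ≤ N := gradNorm_nonneg _ _
  have hsub : Measurable fun y : R3 => x - y := measurable_const.sub measurable_id
  have hid : ∀ i, Integrable fun y => ker r y * pd f i (x - y) := fun i =>
    integrable_ker_mul hr ((measurable_pd f i).comp hsub) fun y => abs_pd_le hf i _
  have hig : Integrable fun y => ker r y * gradNorm f (x - y) :=
    integrable_ker_mul hr ((measurable_gradNorm f).comp hsub) (C := 2 * L) fun y => by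
      rw [abs_of_nonneg (gradNorm_nonneg _ _)]
      exact gradNorm_le hf _
  have h2 : N ^ 2 ≤ N * B := by
    have e1 : N ^ 2 = ∑ i, c i * pd (moll r f) i x := by
      rw [hN, gradNorm, Real.sq_sqrt (Finset.sum_nonneg fun i _ => sq_nonneg _)]
      simp [hc, sq]
    have e2 : N ^ 2 = ∫ y, ∑ i, c i * (ker r y * pd f i (x - y)) := by
      rw [e1, integral_finsetSum _ fun i _ => (hid i).const_mul (c i)]
      simp [pd_moll hr hf h01, integral_const_mul]
    rw [e2, hB, ← integral_const_mul]
    refine integral_mono (integrable_finsetSum _ fun i _ => (hid i).const_mul (c i))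
      (hig.const_mul N) fun y => ?_
    have hcs := Real.sum_mul_le_sqrt_mul_sqrt Finset.univ c fun i => pd f i (x - y)
    calc ∑ i, c i * (ker r y * pd f i (x - y))
        = ker r y * ∑ i, c i * pd f i (x - y) := by
          rw [Finset.mul_sum]
          exact Finset.sum_congr rfl fun i _ => by ring
      _ ≤ ker r y * (N * gradNorm f (x - y)) :=
          mul_le_mul_of_nonneg_left hcs (ker_nonneg r y)
      _ = N * (ker r y * gradNorm f (x - y)) := by ring
  rcases hN0.lt_or_eq with h | h
  · exact le_of_mul_le_mul_left (by rwa [← sq]) h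
  · exact h ▸ hB0

/-- The cube enlarged by `R` on every side. -/
def big (R : ℝ) : Set R3 := Icc (fun _ => -R) (fun _ => 1 + R)

theorem cube_subset_big {R : ℝ} (hR : 0 ≤ R) : cube ⊆ big R :=
  fun x hx => ⟨fun i => by linarith [show (0 : ℝ) ≤ x i from hx.1 i],
    fun i => by linarith [show x i ≤ 1 from hx.2 i]⟩

theorem volume_real_big {R : ℝ} (hR : 0 ≤ R) : volume.real (big R) = (1 + 2 * R) ^ 3 := by
  rw [measureReal_def, big, Real.volume_Icc_pi_toReal (fun _ => by linarith)]
  simp only [Fin.prod_univ_three]
  ring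

theorem volume_real_cube : volume.real cube = 1 := by
  rw [measureReal_def, cube, Real.volume_Icc_pi_toReal zero_le_one]
  simp

theorem measurableSet_cube : MeasurableSet cube := measurableSet_Icc

theorem volume_cube_ne_top : volume cube ≠ ⊤ := isCompact_Icc.measure_lt_top.ne

theorem integrableOn_gradNorm {s : Set R3} (hf : LipschitzWith L f) (hs : volume s ≠ ⊤) :
    IntegrableOn (gradNorm f) s :=
  Measure.integrableOn_of_bounded hs (measurable_gradNorm f).aestronglyMeasurable
    (M := 2 * L) (Eventually.of_forall fun x => by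
      rw [Real.norm_of_nonneg (gradNorm_nonneg _ _)]
      exact gradNorm_le hf x)

theorem integral_big_le {R : ℝ} (hR : 0 ≤ R) (hf : LipschitzWith L f) :
    ∫ x in big R, gradNorm f x ≤
      (∫ x in cube, gradNorm f x) + 2 * L * ((1 + 2 * R) ^ 3 - 1) := by
  have hbig : volume (big R) ≠ ⊤ := isCompact_Icc.measure_lt_top.ne
  have hsub := cube_subset_big hR
  have hd : volume (big R \ cube) ≠ ⊤ := ne_top_of_le_ne_top hbig (measure_mono sdiff_subset)
  have e : big R = cube ∪ (big R \ cube) := (union_sdiff_cancel hsub).symm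
  rw [e, setIntegral_union disjoint_sdiff_right
    ((show MeasurableSet (big R) from measurableSet_Icc).diff measurableSet_cube)
    (integrableOn_gradNorm hf volume_cube_ne_top) (integrableOn_gradNorm hf hd)]
  gcongr
  refine (setIntegral_mono_on (g := fun _ => 2 * (L : ℝ)) (integrableOn_gradNorm hf hd)
    (integrableOn_const hd) ((show MeasurableSet (big R) from measurableSet_Icc).diff
      measurableSet_cube) fun x _ => gradNorm_le hf x).trans_eq ?_
  rw [setIntegral_const, measureReal_diff hsub measurableSet_cube hbig,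
    volume_real_big hR, volume_real_cube, smul_eq_mul, mul_comm]

theorem integral_gradNorm_moll_le (hr : 0 < r) (hf : LipschitzWith L f)
    (h01 : ∀ x, f x ∈ Icc (0 : ℝ) 1) :
    ∫ x in cube, gradNorm (moll r f) x ≤
      (∫ x in cube, gradNorm f x) + 2 * L * ((1 + 4 * r) ^ 3 - 1) := by
  have : IsFiniteMeasure (volume.restrict cube : Measure R3) :=
    isFiniteMeasure_restrict.2 volume_cube_ne_top
  set B := (∫ x in cube, gradNorm f x) + 2 * L * ((1 + 4 * r) ^ 3 - 1) with hB
  have hu : Integrable (Function.uncurry fun x y => ker r y * gradNorm f (x - y))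
      ((volume.restrict cube).prod volume) := by
    refine Integrable.mono' ((integrable_const (2 * (L : ℝ))).mul_prod (integrable_ker hr)) ?_ ?_
    · exact (((contDiff_ker r).continuous.measurable.comp measurable_snd).mul
        ((measurable_gradNorm f).comp (measurable_fst.sub measurable_snd))).aestronglyMeasurable
    · refine Eventually.of_forall fun z => ?_
      show ‖ker r z.2 * gradNorm f (z.1 - z.2)‖ ≤ 2 * L * ker r z.2
      rw [norm_mul, Real.norm_of_nonneg (ker_nonneg r _),
        Real.norm_of_nonneg (gradNorm_nonneg _ _), mul_comm]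
      exact mul_le_mul_of_nonneg_right (gradNorm_le hf _) (ker_nonneg r _)
  have hmc : Continuous (gradNorm (moll r f)) :=
    (continuous_finsetSum _ fun i _ => (((contDiff_moll hr hf.continuous).continuous_fderiv
      one_ne_zero).clm_apply continuous_const).pow 2).sqrt
  have hdep : ∀ y : R3, ker r y * ∫ x in cube, gradNorm f (x - y) ≤ ker r y * B := by
    intro y
    rcases lt_or_ge (2 * r) ‖y‖ with hy | hy
    · simp [ker_eq_zero hr hy]
    refine mul_le_mul_of_nonneg_left ?_ (ker_nonneg r y)
    have hmp := measurePreserving_sub_right (volume : Measure R3) y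
    have hemb : MeasurableEmbedding fun x : R3 => x - y := measurableEmbedding_subRight y
    have hbig : volume (big (2 * r)) ≠ ⊤ := isCompact_Icc.measure_lt_top.ne
    have e := hmp.setIntegral_preimage_emb hemb (gradNorm f) (big (2 * r))
    have h1 : ∫ x in cube, gradNorm f (x - y) ≤
        ∫ x in (fun x => x - y) ⁻¹' big (2 * r), gradNorm f (x - y) := by
      refine setIntegral_mono_set ?_ (Eventually.of_forall fun x => gradNorm_nonneg _ _)
        (LE.le.eventuallyLE ?_)
      · exact (hmp.integrableOn_comp_preimage hemb).2 (integrableOn_gradNorm hf hbig)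
      · intro x hx
        refine ⟨fun i => ?_, fun i => ?_⟩ <;>
          · have := abs_le.1 ((norm_le_pi_norm y i).trans hy)
            simp only [Pi.sub_apply]
            linarith [show (0 : ℝ) ≤ x i from hx.1 i, show x i ≤ 1 from hx.2 i]
    rw [e] at h1
    have h2 := integral_big_le (R := 2 * r) (by positivity) hf
    rw [hB, show (1 + 4 * r) = 1 + 2 * (2 * r) by ring]
    exact h1.trans h2
  calc ∫ x in cube, gradNorm (moll r f) x
      ≤ ∫ x in cube, ∫ y, ker r y * gradNorm f (x - y) :=
        setIntegral_mono (hmc.continuousOn.integrableOn_compact isCompact_Icc)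
          hu.integral_prod_left fun x => gradNorm_moll_le hr hf h01 x
    _ = ∫ y, ker r y * ∫ x in cube, gradNorm f (x - y) := by
        rw [integral_integral_swap hu]
        simp only [integral_const_mul]
    _ ≤ ∫ y, ker r y * B := by
        refine integral_mono ?_ ((integrable_ker hr).mul_const B) hdep
        simpa only [Function.uncurry_apply_pair, integral_const_mul] using hu.integral_prod_right
    _ = B := by rw [integral_mul_const, integral_ker hr, one_mul]

theorem integral_gradNorm_ext (g : R3 → ℝ) :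
    ∫ x in cube, gradNorm (ext g) x = ∫ x in cube, gradNorm g x := by
  set U : Set R3 := pi univ fun _ => Ioo (0 : ℝ) 1 with hU
  have hae : U =ᵐ[(volume : Measure R3)] cube := Measure.univ_pi_Ioo_ae_eq_Icc
  rw [← setIntegral_congr_set hae, ← setIntegral_congr_set hae]
  have ho : IsOpen U := isOpen_set_pi finite_univ fun _ _ => isOpen_Ioo
  refine setIntegral_congr_fun ho.measurableSet fun x hx => ?_
  have he : ext g =ᶠ[𝓝 x] g := by
    filter_upwards [ho.mem_nhds hx] with y hy
    show g (clampv y) = g y
    rw [clampv_eq (show y ∈ cube from ⟨fun i => (hy i trivial).1.le, fun i => (hy i trivial).2.le⟩)]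
  simp [gradNorm, pd, he.fderiv_eq]

/-- The tilted mollified extension. -/
noncomputable def approx (g : R3 → ℝ) (r : ℝ) (x : R3) : ℝ :=
  (moll r (ext g) x + r * (3 - (x 0 + x 1 + x 2))) / (1 + 3 * r)

variable {g : R3 → ℝ}

theorem ext_mem (hg : ∀ x, g x ∈ Icc (0 : ℝ) 1) (x : R3) : ext g x ∈ Icc (0 : ℝ) 1 := hg _

theorem contDiff_approx (hr : 0 < r) (hL : LipschitzWith L g) : ContDiff ℝ 1 (approx g r) :=
  ((contDiff_moll hr (lipschitz_ext hL).continuous).add (by fun_prop)).div_const _

theorem pd_approx (hr : 0 < r) (hL : LipschitzWith L g) (i : Fin 3) (x : R3) :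
    pd (approx g r) i x = (pd (moll r (ext g)) i x - r) / (1 + 3 * r) := by
  have hm := ((contDiff_moll hr (lipschitz_ext hL).continuous).differentiable one_ne_zero x).hasFDerivAt
  have hp : ∀ k : Fin 3, HasFDerivAt (fun y : R3 => y k)
      (ContinuousLinearMap.proj (R := ℝ) (φ := fun _ : Fin 3 => ℝ) k) x :=
    fun k => (ContinuousLinearMap.proj (R := ℝ) (φ := fun _ : Fin 3 => ℝ) k).hasFDerivAt
  have h := (hm.add (((((hp 0).add (hp 1)).add (hp 2)).const_sub 3).const_mul r)).mul_const
    (1 + 3 * r)⁻¹
  have e : approx g r = fun y => (moll r (ext g) y + r * (3 - (y 0 + y 1 + y 2))) * (1 + 3 * r)⁻¹ :=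
    funext fun y => div_eq_mul_inv _ _
  have h' : HasFDerivAt
      (fun y => (moll r (ext g) y + r * (3 - (y 0 + y 1 + y 2))) * (1 + 3 * r)⁻¹) _ x := h
  rw [pd, e, h'.fderiv, div_eq_mul_inv]
  simp only [pd, ContinuousLinearMap.smul_apply, ContinuousLinearMap.add_apply,
    ContinuousLinearMap.neg_apply, ContinuousLinearMap.proj_apply, smul_eq_mul]
  fin_cases i <;> simp <;> ring

theorem pd_approx_neg (hr : 0 < r) (hL : LipschitzWith L g) (h01 : ∀ x, g x ∈ Icc (0 : ℝ) 1)
    (ha : CubeAntitone g) (i : Fin 3) (x : R3) : pd (approx g r) i x < 0 := by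
  rw [pd_approx hr hL]
  refine div_neg_of_neg_of_pos ?_ (by positivity)
  have hm := antitone_moll hr (lipschitz_ext hL) (ext_mem h01) (antitone_ext ha)
  have hd := ((contDiff_moll hr (lipschitz_ext hL).continuous).differentiable one_ne_zero x).hasFDerivAt
  have hline : HasDerivAt (fun t : ℝ => x + t • Pi.single i (1 : ℝ)) (Pi.single i 1) 0 := by
    simpa using ((hasDerivAt_id (0 : ℝ)).smul_const (Pi.single i (1 : ℝ))).const_add x
  have hc := (by simpa using hd : HasFDerivAt (moll r (ext g)) (fderiv ℝ (moll r (ext g)) x)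
    (x + (0 : ℝ) • Pi.single i (1 : ℝ))).comp_hasDerivAt (0 : ℝ) hline
  have hle : pd (moll r (ext g)) i x ≤ 0 := by
    have hanti : Antitone ((moll r (ext g)) ∘ fun t : ℝ => x + t • Pi.single i (1 : ℝ)) := by
      refine fun s t hst => hm ?_
      intro k
      rcases eq_or_ne k i with rfl | hk
      · simpa using hst
      · simp [hk]
    have h0 := hanti.deriv_nonpos (x := (0 : ℝ))
    rw [hc.deriv] at h0
    exact h0
  linarith

theorem gradNorm_add_const_le (c : Fin 3 → ℝ) {e : ℝ} (he : 0 ≤ e) :
    Real.sqrt (∑ i, (c i - e) ^ 2) ≤ Real.sqrt (∑ i, c i ^ 2) + 2 * e := by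
  refine Real.sqrt_le_iff.2 ⟨by positivity, ?_⟩
  have h := Real.sum_mul_le_sqrt_mul_sqrt Finset.univ c fun _ => -e
  have h3 : Real.sqrt (∑ _i : Fin 3, (-e) ^ 2) ≤ 2 * e := by
    refine Real.sqrt_le_iff.2 ⟨by positivity, ?_⟩
    simp only [Fin.sum_univ_three]
    nlinarith
  have h4 := mul_le_mul_of_nonneg_left h3 (Real.sqrt_nonneg (∑ i, c i ^ 2))
  have hs := Real.sq_sqrt (Finset.sum_nonneg fun i (_ : i ∈ Finset.univ) => sq_nonneg (c i))
  simp only [Fin.sum_univ_three] at h h3 h4 hs ⊢
  nlinarith

theorem gradNorm_approx_le (hr : 0 < r) (hL : LipschitzWith L g) (x : R3) :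
    gradNorm (approx g r) x ≤ gradNorm (moll r (ext g)) x + 2 * r := by
  set c : Fin 3 → ℝ := fun i => pd (moll r (ext g)) i x
  have e : gradNorm (approx g r) x = Real.sqrt (∑ i, (c i - r) ^ 2) / (1 + 3 * r) := by
    rw [gradNorm]
    simp only [pd_approx hr hL, div_pow, ← Finset.sum_div]
    rw [Real.sqrt_div (Finset.sum_nonneg fun i _ => sq_nonneg _), Real.sqrt_sq (by positivity)]
  rw [e]
  exact (div_le_self (Real.sqrt_nonneg _) (by linarith)).trans (gradNorm_add_const_le c hr.le)

theorem approx_mem (hr : 0 < r) (hL : LipschitzWith L g) (h01 : ∀ x, g x ∈ Icc (0 : ℝ) 1) {x : R3}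
    (hx : x ∈ cube) : approx g r x ∈ Icc (0 : ℝ) 1 := by
  obtain ⟨hl, hu⟩ := moll_mem hr (lipschitz_ext hL) (ext_mem h01) x
  have h0 : ∀ i, 0 ≤ x i := fun i => hx.1 i
  have h1 : ∀ i, x i ≤ 1 := fun i => hx.2 i
  have := h0 0; have := h0 1; have := h0 2; have := h1 0; have := h1 1; have := h1 2
  refine ⟨div_nonneg ?_ (by positivity), (div_le_one (by positivity)).2 ?_⟩ <;> nlinarith

theorem sorted_approx (hr : 0 < r) (hL : LipschitzWith L g) (h01 : ∀ x, g x ∈ Icc (0 : ℝ) 1)
    (hs : CubeSorted g) : CubeSorted (approx g r) := by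
  intro p _ i j hij hp
  refine div_le_div_of_nonneg_right ?_ (by positivity)
  refine add_le_add (sorted_moll hr (lipschitz_ext hL) (ext_mem h01)
    (fun q hq => sorted_ext hs hij hq) hp) ?_
  have e : (∑ k, (p ∘ Equiv.swap i j) k) = ∑ k, p k := Equiv.sum_comp (Equiv.swap i j) p
  simp only [Fin.sum_univ_three] at e
  rw [e]

theorem abs_approx_sub_le (hr : 0 < r) (hL : LipschitzWith L g) (h01 : ∀ x, g x ∈ Icc (0 : ℝ) 1)
    {x : R3} (hx : x ∈ cube) : |approx g r x - g x| ≤ (2 * L + 6) * r := by
  obtain ⟨hl, hu⟩ := abs_le.1 (abs_moll_sub_le hr (lipschitz_ext hL) (ext_mem h01) x)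
  have he : ext g x = g x := by simp [ext, clampv_eq hx]
  rw [he] at hl hu
  obtain ⟨hg0, hg1⟩ := h01 x
  have h0 : ∀ i, 0 ≤ x i := fun i => hx.1 i
  have h1 : ∀ i, x i ≤ 1 := fun i => hx.2 i
  have := h0 0; have := h0 1; have := h0 2; have := h1 0; have := h1 1; have := h1 2
  have hL0 : (0 : ℝ) ≤ L := L.coe_nonneg
  rw [approx, div_sub' (by positivity), abs_div, abs_of_pos (show (0 : ℝ) < 1 + 3 * r by positivity),
    div_le_iff₀ (by positivity)]
  rw [abs_le]
  constructor <;> nlinarith [mul_nonneg hr.le hg0, mul_nonneg hL0 (mul_nonneg hr.le hr.le)]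

theorem levelVol_eq (h : R3 → ℝ) (t : ℝ) :
    levelVol h t = (volume.restrict cube).real {x | t < h x} := by
  rw [measureReal_restrict_apply' measurableSet_cube, inter_comm]
  rfl

theorem levelVol_mem (h : R3 → ℝ) (t : ℝ) : levelVol h t ∈ Icc (0 : ℝ) 1 :=
  ⟨measureReal_nonneg, (measureReal_mono (fun _ hx => hx.1) volume_cube_ne_top).trans_eq
    volume_real_cube⟩

theorem continuous_cubeCandidate : Continuous cubeCandidate := by
  have h : Continuous fun v : ℝ => (min v (1 - v)) ^ ((2 : ℝ) / 3) :=
    (continuous_id.min (continuous_const.sub continuous_id)).rpow_const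
      fun _ => Or.inr (by norm_num)
  exact (((continuous_const.mul h).min (continuous_const.mul
    (continuous_const.mul (continuous_id.min (continuous_const.sub continuous_id))).sqrt)).min
      continuous_const).div_const _

theorem tendsto_levelInt (hL : LipschitzWith L g) (h : ℕ → R3 → ℝ) (hh : ∀ n, Measurable (h n))
    (hlim : ∀ x ∈ cube, Tendsto (fun n => h n x) atTop (𝓝 (g x))) :
    Tendsto (fun n => ∫ t in (0 : ℝ)..1, cubeCandidate (levelVol (h n) t)) atTop
      (𝓝 (∫ t in (0 : ℝ)..1, cubeCandidate (levelVol g t))) := by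
  have : IsFiniteMeasure (volume.restrict cube : Measure R3) :=
    isFiniteMeasure_restrict.2 volume_cube_ne_top
  obtain ⟨C, hC⟩ := (isCompact_Icc (a := (0 : ℝ)) (b := 1)).exists_bound_of_continuousOn
    continuous_cubeCandidate.continuousOn
  refine intervalIntegral.tendsto_integral_filter_of_dominated_convergence (fun _ => C)
    (Eventually.of_forall fun n => ?_) (Eventually.of_forall fun n => Eventually.of_forall
      fun t _ => hC _ (levelVol_mem _ _)) intervalIntegrable_const ?_
  · have : Antitone (levelVol (h n)) := fun s t hst =>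
      measureReal_mono (fun x hx => ⟨hx.1, hst.trans_lt hx.2⟩)
        (ne_top_of_le_ne_top volume_cube_ne_top (measure_mono fun x hx => hx.1))
    exact (continuous_cubeCandidate.measurable.comp this.measurable).aestronglyMeasurable
  · have hcount := Measure.countable_meas_level_set_pos (μ := volume.restrict cube)
      hL.continuous.measurable
    filter_upwards [hcount.ae_notMem (volume : Measure ℝ)] with t ht _
    refine (continuous_cubeCandidate.tendsto _).comp ?_
    have hnull : (volume.restrict cube) {x | g x = t} = 0 := le_antisymm (not_lt.1 ht) zero_le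
    have hmeas := tendsto_measure_of_ae_tendsto_indicator_of_isFiniteMeasure atTop
      (μ := volume.restrict cube) (A := {x | t < g x}) (As := fun n => {x | t < h n x})
      (hL.continuous.measurable measurableSet_Ioi) (fun n => hh n measurableSet_Ioi) ?_
    · simp only [levelVol_eq, measureReal_def]
      exact (ENNReal.tendsto_toReal (measure_ne_top _ _)).comp hmeas
    · have hne : ∀ᵐ x ∂(volume.restrict cube), g x ≠ t := by
        rw [ae_iff]
        simpa using hnull
      filter_upwards [hne, ae_restrict_mem measurableSet_cube] with x hx hxc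
      rcases lt_or_gt_of_ne hx with hlt | hgt
      · filter_upwards [(hlim x hxc).eventually (eventually_lt_nhds hlt)] with n hn
        exact iff_of_false (not_lt.2 hn.le) (not_lt.2 hlt.le)
      · filter_upwards [(hlim x hxc).eventually (eventually_gt_nhds hgt)] with n hn
        exact iff_of_true hn hgt

end Vale.Agent.P232.Smooth

namespace Vale.Agent.P232

open Smooth

/-- M5: the inequality for smooth strictly decreasing sorted functions gives it for Lipschitz
nonincreasing sorted ones. -/
theorem sortedIso_of_smoothIso (H : SmoothIso) : SortedIso := by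
  intro L g hL h01 ha hs
  let r : ℕ → ℝ := fun n => 1 / ((n : ℝ) + 1)
  have hr : ∀ n, 0 < r n := fun n => by positivity
  have hr0 : Tendsto r atTop (𝓝 0) := tendsto_one_div_add_atTop_nhds_zero_nat
  have hlim : ∀ x ∈ cube, Tendsto (fun n => approx g (r n) x) atTop (𝓝 (g x)) := fun x hx => by
    rw [tendsto_iff_dist_tendsto_zero]
    refine squeeze_zero (fun n => dist_nonneg)
      (fun n => (Real.dist_eq _ _).trans_le (abs_approx_sub_le (hr n) hL h01 hx)) ?_
    simpa using hr0.const_mul (2 * (L : ℝ) + 6)
  have hB : ∀ n, ∫ t in (0 : ℝ)..1, cubeCandidate (levelVol (approx g (r n)) t) ≤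
      (∫ x in cube, gradNorm g x) + (2 * L * ((1 + 4 * r n) ^ 3 - 1) + 2 * r n) := by
    intro n
    have : IsFiniteMeasure (volume.restrict cube : Measure R3) :=
      isFiniteMeasure_restrict.2 volume_cube_ne_top
    have hc : ∀ F : R3 → ℝ, ContDiff ℝ 1 F → IntegrableOn (gradNorm F) cube := fun F hF =>
      (continuous_finsetSum _ fun i _ => ((hF.continuous_fderiv one_ne_zero).clm_apply
        continuous_const).pow 2).sqrt.continuousOn.integrableOn_compact isCompact_Icc
    have hm := hc _ (contDiff_moll (hr n) (lipschitz_ext hL).continuous)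
    have hi := (H _ (contDiff_approx (hr n) hL) (fun x hx => approx_mem (hr n) hL h01 hx)
      (fun x _ i => pd_approx_neg (hr n) hL h01 ha i x)
      (sorted_approx (hr n) hL h01 hs)).trans (setIntegral_mono (hc _ (contDiff_approx (hr n) hL))
      (hm.add (integrable_const (2 * r n))) fun x => gradNorm_approx_le (hr n) hL x)
    simp only [Pi.add_apply] at hi
    rw [integral_add hm (integrable_const _), setIntegral_const, volume_real_cube, one_smul] at hi
    have hk := integral_gradNorm_moll_le (hr n) (lipschitz_ext hL) (ext_mem h01)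
    rw [integral_gradNorm_ext] at hk
    linarith
  refine le_of_tendsto_of_tendsto' (tendsto_levelInt hL _
    (fun n => (contDiff_approx (hr n) hL).continuous.measurable) hlim) ?_ hB
  simpa using tendsto_const_nhds.add
    ((((((hr0.const_mul 4).const_add 1).pow 3).sub_const 1).const_mul (2 * (L : ℝ))).add
      (hr0.const_mul 2))

end Vale.Agent.P232
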