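import Vale.Agent.P232.Periodic

/-!
# P232: slabs, tubes and balls

Radial cutoffs of the distance to a subtorus show that slabs, tubes and balls, and their
complements, have at most their elementary perimeters; hence the profile is at most the candidate.
-/

open MeasureTheory Set Filter
open scoped Topology ENNReal

namespace Vale.Agent.P232

/-- A limit of periodic Lipschitz functions bounds the perimeter by the limit of total gradients. -/
theorem perimeter_le_of_tendsto {E : Set R3} (hE : MeasurableSet E) {f : ℕ → R3 → ℝ}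
    {L : ℕ → NNReal} {c : ℕ → ℝ} {C : ℝ} (hL : ∀ k, LipschitzWith (L k) (f k))
    (hp : ∀ k, IsPeriodic (f k)) (h01 : ∀ k x, f k x ∈ Icc (0 : ℝ) 1)
    (hlim : ∀ x, Tendsto (fun k => f k x) atTop (𝓝 (E.indicator (fun _ => (1 : ℝ)) x)))
    (hc : ∀ k, ∫ x in cube, gradNorm (f k) x ≤ c k) (hC : Tendsto c atTop (𝓝 C)) :
    perimeter E ≤ ENNReal.ofReal C := by
  refine perimeter_le fun φ hφ => ?_
  have hD := continuous_divg hφ.1
  obtain ⟨B, hB⟩ := isCompact_cube.exists_bound_of_continuousOn hD.continuousOn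
  have h : Tendsto (fun k => ∫ x in cube, f k x * divg φ x) atTop
      (𝓝 (∫ x in E ∩ cube, divg φ x)) := by
    have e : ∫ x in E ∩ cube, divg φ x =
        ∫ x in cube, E.indicator (fun _ => (1 : ℝ)) x * divg φ x := by
      rw [inter_comm, ← setIntegral_indicator hE]
      refine setIntegral_congr_fun measurableSet_cube fun x _ => ?_
      by_cases h : x ∈ E <;> simp [h]
    rw [e]
    refine tendsto_integral_of_dominated_convergence (fun _ => B)
      (fun k => ((hL k).continuous.mul hD).aestronglyMeasurable) (integrable_const _) (fun k => ?_)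
      (Eventually.of_forall fun x => (hlim x).mul_const _)
    filter_upwards [ae_restrict_mem measurableSet_cube] with x hx
    rw [norm_mul]
    refine (mul_le_of_le_one_left (norm_nonneg _) ?_).trans (hB x hx)
    rw [Real.norm_eq_abs, abs_of_nonneg (h01 k x).1]
    exact (h01 k x).2
  exact le_of_tendsto_of_tendsto' h hC fun k =>
    (integral_mul_divg_le (hL k) (hp k) hφ).trans (hc k)

/-- A set and its complement have the same perimeter. -/
theorem perimeter_compl_le {E : Set R3} (hE : MeasurableSet E) :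
    perimeter Eᶜ ≤ perimeter E := by
  refine iSup₂_le fun φ hφ => ?_
  have hn : TestField fun x => -φ x :=
    ⟨hφ.1.neg, hφ.2.1.comp Neg.neg, fun x => by simpa using hφ.2.2 x⟩
  refine le_trans (ENNReal.ofReal_le_ofReal (le_of_eq ?_)) (le_perimeter hn)
  have hi : IntegrableOn (divg φ) cube :=
    (continuous_divg hφ.1).continuousOn.integrableOn_compact isCompact_cube
  have h0 := integral_divg_eq_zero hφ.1 hφ.2.1
  rw [← integral_inter_add_sdiff hE hi] at h0
  have e : divg (fun x => -φ x) = fun x => -divg φ x := by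
    funext x
    simp only [divg, fderiv_fun_neg, neg_apply, Pi.neg_apply, Finset.sum_neg_distrib]
  rw [e, integral_neg, inter_comm E, inter_comm Eᶜ, ← sdiff_eq]
  linarith

theorem IsCompetitor.compl {E : Set R3} {V : ℝ} (h : IsCompetitor E V) (hV : 0 ≤ V) :
    IsCompetitor Eᶜ (1 - V) := by
  refine ⟨h.1.compl, fun x k => ?_, ?_⟩
  · have h' := h.2.1 x k
    simpa only [mem_compl_iff, eq_iff_iff, not_iff_not] using h'
  · rw [inter_comm, ← sdiff_eq, ← sdiff_inter_self_eq_sdiff, measure_sdiff inter_subset_right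
      (h.1.inter measurableSet_cube).nullMeasurableSet (by rw [h.2.2]; exact ENNReal.ofReal_ne_top),
      volume_cube, h.2.2, ENNReal.ofReal_sub _ hV, ENNReal.ofReal_one]

/-- The distance to the integers. -/
noncomputable def zdist (t : ℝ) : ℝ := |t - round t|

theorem abs_zdist_sub (s t : ℝ) : |zdist s - zdist t| ≤ |s - t| := by
  have key : ∀ u w : ℝ, zdist u ≤ |u - w| + zdist w := fun u w =>
    (round_le u (round w)).trans (abs_sub_le _ _ _)
  rw [abs_sub_le_iff]
  constructor
  · linarith [key s t]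
  · linarith [key t s, abs_sub_comm s t]

theorem zdist_add_int (t : ℝ) (k : ℤ) : zdist (t + k) = zdist t := by
  rw [zdist, zdist, round_add_intCast]
  push_cast
  ring_nf

theorem zdist_eq_abs {t : ℝ} (h : |t| ≤ 1 / 2) : zdist t = |t| := by
  refine le_antisymm (by simpa [zdist] using round_le t 0) ?_
  rcases eq_or_ne (round t) 0 with hz | hz
  · rw [zdist, hz]; simp
  · have h1 : (1 : ℝ) ≤ |(round t : ℝ)| := by exact_mod_cast Int.one_le_abs hz
    have h2 := abs_sub_abs_le_abs_sub (round t : ℝ) t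
    rw [zdist, abs_sub_comm t]
    linarith

/-- The components measured by the distance to the subtorus where they are integers. -/
noncomputable def emb (S : Finset (Fin 3)) (x : R3) : EuclideanSpace ℝ (Fin 3) :=
  WithLp.toLp 2 fun i => if i ∈ S then zdist (x i) else 0

/-- The distance to the subtorus. -/
noncomputable def tdist (S : Finset (Fin 3)) (x : R3) : ℝ := ‖emb S x‖

theorem isPeriodic_tdist (S : Finset (Fin 3)) : IsPeriodic (tdist S) := fun x k => by
  simp only [tdist, emb, Pi.add_apply, zdist_add_int]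

theorem abs_tdist_sub (S : Finset (Fin 3)) (x y : R3) :
    |tdist S x - tdist S y| ≤ Real.sqrt (∑ i, (x i - y i) ^ 2) := by
  refine (abs_norm_sub_norm_le _ _).trans ?_
  rw [EuclideanSpace.norm_eq]
  refine Real.sqrt_le_sqrt (Finset.sum_le_sum fun i _ => ?_)
  simp only [emb, WithLp.ofLp_sub, Pi.sub_apply, Real.norm_eq_abs, sq_abs]
  split_ifs
  · exact sq_le_sq.2 (abs_zdist_sub _ _)
  · simpa using sq_nonneg (x i - y i)

theorem sqrt_sum_sq_le (x : R3) : Real.sqrt (∑ i, x i ^ 2) ≤ 2 * ‖x‖ := by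
  rw [Real.sqrt_le_iff]
  refine ⟨by positivity, ?_⟩
  have h : ∀ i, x i ^ 2 ≤ ‖x‖ ^ 2 := fun i => by
    rw [← sq_abs (x i), ← Real.norm_eq_abs]
    exact pow_le_pow_left₀ (norm_nonneg _) (norm_le_pi_norm x i) 2
  rw [Fin.sum_univ_three]
  nlinarith [h 0, h 1, h 2, sq_nonneg ‖x‖]

/-- The cutoff: one up to distance `r`, then linear of slope `k` down to zero. -/
noncomputable def cutoff (S : Finset (Fin 3)) (r k : ℝ) (x : R3) : ℝ :=
  max 0 (min 1 (1 + (r - tdist S x) * k))

theorem cutoff_mem (S : Finset (Fin 3)) (r k : ℝ) (x : R3) : cutoff S r k x ∈ Icc (0 : ℝ) 1 :=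
  ⟨le_max_left _ _, max_le zero_le_one (min_le_left _ _)⟩

theorem abs_cutoff_sub (S : Finset (Fin 3)) (r : ℝ) {k : ℝ} (hk : 0 ≤ k) (x y : R3) :
    |cutoff S r k x - cutoff S r k y| ≤ k * Real.sqrt (∑ i, (x i - y i) ^ 2) := by
  refine le_trans ((abs_max_sub_max_le_max (0 : ℝ) (min 1 (1 + (r - tdist S x) * k)) 0
    (min 1 (1 + (r - tdist S y) * k))).trans (max_le (by simp)
      ((abs_min_sub_min_le_max (1 : ℝ) (1 + (r - tdist S x) * k) 1
        (1 + (r - tdist S y) * k)).trans (max_le (by simp) le_rfl)))) ?_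
  have e : 1 + (r - tdist S x) * k - (1 + (r - tdist S y) * k) =
      k * (tdist S y - tdist S x) := by ring
  rw [e, abs_mul, abs_of_nonneg hk, abs_sub_comm]
  exact mul_le_mul_of_nonneg_left (abs_tdist_sub S x y) hk

theorem lipschitzWith_cutoff (S : Finset (Fin 3)) (r : ℝ) {k : ℝ} (hk : 0 ≤ k) :
    LipschitzWith (k * 2).toNNReal (cutoff S r k) :=
  LipschitzWith.of_dist_le_mul fun x y => by
    rw [Real.dist_eq, dist_eq_norm, Real.coe_toNNReal _ (by positivity), mul_assoc]
    exact (abs_cutoff_sub S r hk x y).trans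
      (mul_le_mul_of_nonneg_left (sqrt_sum_sq_le (x - y)) hk)

theorem gradNorm_le_of_lipschitz {f : R3 → ℝ} {k : ℝ} (hk : 0 ≤ k) {x : R3}
    (h : ∀ y, |f y - f x| ≤ k * Real.sqrt (∑ i, (y i - x i) ^ 2)) : gradNorm f x ≤ k := by
  by_cases hd : DifferentiableAt ℝ f x
  swap
  · have : gradNorm f x = 0 := by simp [gradNorm, pd, fderiv_zero_of_not_differentiableAt hd]
    rw [this]; exact hk
  set v : R3 := fun i => pd f i x with hv
  have hdv : fderiv ℝ f x v = gradNorm f x ^ 2 := by
    rw [gradNorm, Real.sq_sqrt (Finset.sum_nonneg fun i _ => sq_nonneg _), pi_eq_sum_univ' v,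
      map_sum]
    simp only [map_smul, smul_eq_mul, sq]
    exact Finset.sum_congr rfl fun i _ => by simp [hv, pd]
  have hle : fderiv ℝ f x v ≤ k * gradNorm f x := by
    refine le_of_tendsto (hd.hasFDerivAt.hasLineDerivAt v).tendsto_slope_zero_right ?_
    filter_upwards [self_mem_nhdsWithin] with t (ht : 0 < t)
    rw [smul_eq_mul, inv_mul_le_iff₀ ht]
    refine (le_abs_self _).trans ((h _).trans_eq ?_)
    simp only [Pi.add_apply, Pi.smul_apply, add_sub_cancel_left, smul_eq_mul, mul_pow,
      ← Finset.mul_sum, Real.sqrt_mul (sq_nonneg t), Real.sqrt_sq ht.le, gradNorm, hv]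
    ring
  rw [hdv] at hle
  nlinarith [gradNorm_nonneg f x]

/-- The volume of the points of the cube within distance `s` of the subtorus. -/
noncomputable def tubeVol (S : Finset (Fin 3)) (s : ℝ) : ℝ :=
  volume.real {x ∈ cube | tdist S x ≤ s}

theorem continuous_tdist (S : Finset (Fin 3)) : Continuous (tdist S) := by
  refine (LipschitzWith.of_dist_le_mul (K := 2) fun x y => ?_).continuous
  rw [Real.dist_eq, dist_eq_norm, NNReal.coe_two]
  exact (abs_tdist_sub S x y).trans (sqrt_sum_sq_le (x - y))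

theorem integral_gradNorm_cutoff (S : Finset (Fin 3)) (r : ℝ) {k : ℝ} (hk : 0 < k) :
    ∫ x in cube, gradNorm (cutoff S r k) x ≤ k * (tubeVol S (r + 1 / k) - tubeVol S r) := by
  have hm : ∀ s, MeasurableSet {x : R3 | tdist S x ≤ s} := fun s =>
    measurableSet_le (continuous_tdist S).measurable measurable_const
  have key : ∀ x, gradNorm (cutoff S r k) x ≤
      ({x | tdist S x ≤ r + 1 / k} \ {x | tdist S x ≤ r}).indicator (fun _ => k) x := fun x => by
    have zero : fderiv ℝ (cutoff S r k) x = 0 → gradNorm (cutoff S r k) x = 0 := fun h => by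
      simp [gradNorm, pd, h]
    by_cases h1 : tdist S x ≤ r
    · rw [indicator_of_notMem (fun h => h.2 h1)]
      refine (zero (IsLocalMax.fderiv_eq_zero (Eventually.of_forall fun y => ?_))).le
      have : cutoff S r k x = 1 := by
        rw [cutoff, min_eq_left (by nlinarith), max_eq_right zero_le_one]
      rw [this]; exact (cutoff_mem S r k y).2
    by_cases h2 : tdist S x ≤ r + 1 / k
    · rw [indicator_of_mem (show x ∈ {x | tdist S x ≤ r + 1 / k} \ {x | tdist S x ≤ r} from ⟨h2, h1⟩)]
      exact gradNorm_le_of_lipschitz hk.le fun y => abs_cutoff_sub S r hk.le y x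
    · rw [indicator_of_notMem (fun h => h2 h.1)]
      refine (zero (IsLocalMin.fderiv_eq_zero (Eventually.of_forall fun y => ?_))).le
      have : cutoff S r k x = 0 := by
        refine max_eq_left (min_le_of_right_le ?_)
        have h3 : r + 1 / k < tdist S x := not_le.1 h2
        rw [← lt_sub_iff_add_lt', div_lt_iff₀ hk] at h3
        linarith
      rw [this]; exact (cutoff_mem S r k y).1
  refine (integral_mono (integrableOn_gradNorm (lipschitzWith_cutoff S r hk.le))
    ((integrable_const k).indicator ((hm _).diff (hm _))) key).trans_eq ?_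
  rw [integral_indicator ((hm _).diff (hm _)), setIntegral_const, smul_eq_mul, mul_comm,
    measureReal_restrict_apply ((hm _).diff (hm _))]
  congr 1
  have hfin : ∀ s, volume ({x | tdist S x ≤ s} ∩ cube) ≠ ⊤ := fun s =>
    ne_top_of_le_ne_top (volume_cube ▸ ENNReal.one_ne_top) (measure_mono inter_subset_right)
  rw [inter_sdiff_distrib_right, measureReal_sdiff ?_ ((hm _).inter measurableSet_cube) (hfin _)]
  · congr 1 <;> exact congrArg volume.real (inter_comm _ _)
  · refine inter_subset_inter_left _ fun x (hx : tdist S x ≤ r) => ?_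
    show tdist S x ≤ r + 1 / k
    linarith [one_div_pos.2 hk]

/-- A tube about a subtorus whose volume is `a s ^ m` bounds the profile by `a m r ^ (m - 1)`. -/
theorem profile_le_tube (S : Finset (Fin 3)) {a r : ℝ} {m : ℕ} (hr : 0 ≤ r) (hr' : r < 1 / 2)
    (hS : ∀ s ∈ Icc (0 : ℝ) (1 / 2), tubeVol S s = a * s ^ m) :
    profile (a * r ^ m) ≤ ENNReal.ofReal (a * (m * r ^ (m - 1))) ∧
      profile (1 - a * r ^ m) ≤ ENNReal.ofReal (a * (m * r ^ (m - 1))) := by
  set E : Set R3 := {x | tdist S x ≤ r}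
  have hm : MeasurableSet E := measurableSet_le (continuous_tdist S).measurable measurable_const
  have hvol : a * r ^ m = volume.real (E ∩ cube) := by
    rw [← hS r ⟨hr, hr'.le⟩, inter_comm]; rfl
  have hcomp : IsCompetitor E (a * r ^ m) := by
    refine ⟨hm, fun x k => ?_, ?_⟩
    · show (tdist S _ ≤ r) = (tdist S x ≤ r)
      rw [isPeriodic_tdist S x k]
    · rw [hvol, ofReal_measureReal
        (ne_top_of_le_ne_top (volume_cube ▸ ENNReal.one_ne_top) (measure_mono inter_subset_right))]
  have hper : perimeter E ≤ ENNReal.ofReal (a * (m * r ^ (m - 1))) := by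
    obtain ⟨N, hN⟩ := exists_nat_one_div_lt (show 0 < 1 / 2 - r by linarith)
    set k : ℕ → ℝ := fun n => (n : ℝ) + N + 1
    have hk : ∀ n, 0 < k n := fun n => by positivity
    have hkt : Tendsto k atTop atTop :=
      tendsto_atTop_add_const_right _ _
        (tendsto_atTop_add_const_right _ _ tendsto_natCast_atTop_atTop)
    have hh : Tendsto (fun n => 1 / k n) atTop (𝓝[>] (0 : ℝ)) :=
      tendsto_nhdsWithin_iff.2 ⟨hkt.const_div_atTop 1 |>.congr fun n => rfl,
        Eventually.of_forall fun n => one_div_pos.2 (hk n)⟩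
    refine perimeter_le_of_tendsto hm
      (fun n => lipschitzWith_cutoff S r (hk n).le)
      (fun n => (isPeriodic_tdist S).comp fun d => max 0 (min 1 (1 + (r - d) * k n)))
      (fun n => cutoff_mem S r (k n)) (fun x => ?_)
      (fun n => integral_gradNorm_cutoff S r (hk n))
      ((((hasDerivAt_pow m r).const_mul a).tendsto_slope_zero_right.comp hh).congr fun n => ?_)
    · by_cases hx : x ∈ E
      · rw [indicator_of_mem hx]
        refine tendsto_const_nhds.congr fun n => ?_
        have hx' : tdist S x ≤ r := hx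
        rw [cutoff, min_eq_left (by nlinarith [hk n]), max_eq_right zero_le_one]
      · rw [indicator_of_notMem hx]
        have hx' : r < tdist S x := not_le.1 hx
        refine tendsto_const_nhds.congr' ?_
        filter_upwards [hkt.eventually_ge_atTop (1 / (tdist S x - r))] with n hn
        rw [div_le_iff₀ (by linarith)] at hn
        exact (max_eq_left (min_le_of_right_le (by nlinarith))).symm
    · have hle : 1 / k n ≤ 1 / ((N : ℝ) + 1) :=
        one_div_le_one_div_of_le (by positivity) (by simp [k])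
      have hp := one_div_pos.2 (hk n)
      show _ = k n * _
      rw [hS _ ⟨by linarith, by linarith⟩, hS r ⟨hr, hr'.le⟩]
      simp [smul_eq_mul]
  exact ⟨iInf₂_le_of_le E hcomp hper,
    iInf₂_le_of_le Eᶜ (hcomp.compl (by rw [hvol]; exact measureReal_nonneg))
      ((perimeter_compl_le hm).trans hper)⟩

/-- The tube volume in the centred cube. -/
theorem tubeVol_eq (S : Finset (Fin 3)) {s : ℝ} (hs : 0 ≤ s) :
    tubeVol S s = volume.real {x : R3 | (∀ i, |x i| ≤ 1 / 2) ∧ ∑ i ∈ S, x i ^ 2 ≤ s ^ 2} := by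
  set a : R3 := fun _ => -(1 / 2 : ℝ)
  set T : Set R3 := {x | tdist S x ≤ s}
  have hm : MeasurableSet T := measurableSet_le (continuous_tdist S).measurable measurable_const
  have h := setIntegral_cubeAt ((isPeriodic_tdist S).comp
    fun d => if d ≤ s then (1 : ℝ) else 0) a
  have e : ∀ U : Set R3, ∫ x in U,
      ((fun d => if d ≤ s then (1 : ℝ) else 0) ∘ tdist S) x = volume.real (U ∩ T) := fun U => by
    have e' : ((fun d => if d ≤ s then (1 : ℝ) else 0) ∘ tdist S) = T.indicator fun _ => 1 := by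
      funext x
      by_cases hx : x ∈ T
      · rw [indicator_of_mem hx]; exact if_pos hx
      · rw [indicator_of_notMem hx]; exact if_neg hx
    rw [e', setIntegral_indicator hm, setIntegral_const, smul_eq_mul, mul_one]
  rw [e, e] at h
  refine h.symm.trans (congrArg volume.real ?_)
  ext x
  have hc : x ∈ cubeAt a ↔ ∀ i, |x i| ≤ 1 / 2 := by
    simp only [cubeAt, a, mem_Icc, Pi.le_def, Pi.add_apply, Pi.one_apply, ← forall_and, abs_le]
    refine forall_congr' fun i => ?_
    constructor <;> rintro ⟨h1, h2⟩ <;> constructor <;> linarith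
  rw [mem_inter_iff, hc, mem_ofPred_eq]
  refine and_congr_right fun hx => ?_
  show tdist S x ≤ s ↔ _
  rw [tdist, EuclideanSpace.norm_eq, Real.sqrt_le_left hs]
  refine iff_of_eq (congrArg (· ≤ s ^ 2) ?_)
  simp only [emb, Real.norm_eq_abs, sq_abs, ite_pow, zero_pow two_ne_zero, zdist_eq_abs (hx _),
    Finset.sum_ite_mem, Finset.univ_inter]

theorem tubeVol_one {s : ℝ} (hs : s ∈ Icc (0 : ℝ) (1 / 2)) : tubeVol {0} s = 2 * s ^ 1 := by
  rw [tubeVol_eq _ hs.1]
  have e : {x : R3 | (∀ i, |x i| ≤ 1 / 2) ∧ ∑ i ∈ ({0} : Finset (Fin 3)), x i ^ 2 ≤ s ^ 2} =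
      Icc ![-s, -(1 / 2), -(1 / 2)] ![s, 1 / 2, 1 / 2] := by
    ext x
    simp only [mem_ofPred_eq, Finset.sum_singleton, sq_le_sq, abs_of_nonneg hs.1, mem_Icc,
      Pi.le_def, Fin.forall_fin_succ, abs_le]
    simp
    constructor
    · rintro ⟨⟨-, ⟨h1, h1'⟩, h2, h2'⟩, h0, h0'⟩; exact ⟨⟨h0, h1, h2⟩, h0', h1', h2'⟩
    · rintro ⟨⟨h0, h1, h2⟩, h0', h1', h2'⟩
      exact ⟨⟨⟨by linarith [hs.2], by linarith [hs.2]⟩, ⟨h1, h1'⟩, h2, h2'⟩, h0, h0'⟩
  rw [e, Measure.real, Real.volume_Icc_pi, ENNReal.toReal_prod, Fin.prod_univ_three]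
  have : (0 : ℝ) ≤ s - -s := by linarith [hs.1]
  simp [ENNReal.toReal_ofReal, hs.1]
  norm_num [this, ENNReal.toReal_ofReal]
  ring

theorem tubeVol_three {s : ℝ} (hs : s ∈ Icc (0 : ℝ) (1 / 2)) :
    tubeVol Finset.univ s = 4 * Real.pi / 3 * s ^ 3 := by
  rw [tubeVol_eq _ hs.1]
  have e : {x : R3 | (∀ i, |x i| ≤ 1 / 2) ∧ ∑ i, x i ^ 2 ≤ s ^ 2} =
      WithLp.toLp 2 ⁻¹' Metric.closedBall (0 : EuclideanSpace ℝ (Fin 3)) s := by
    ext x
    simp only [mem_ofPred_eq, mem_preimage, mem_closedBall_zero_iff, EuclideanSpace.norm_eq,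
      Real.sqrt_le_left hs.1, Real.norm_eq_abs, sq_abs]
    refine ⟨And.right, fun h => ⟨fun i => ?_, h⟩⟩
    have h2 : x i ^ 2 ≤ s ^ 2 := le_trans
      (Finset.single_le_sum (f := fun j => x j ^ 2) (fun j _ => sq_nonneg _) (Finset.mem_univ i)) h
    exact (abs_le_of_sq_le_sq h2 hs.1).trans hs.2
  rw [e, Measure.real, (PiLp.volume_preserving_toLp (Fin 3)).measure_preimage
    measurableSet_closedBall.nullMeasurableSet, EuclideanSpace.volume_closedBall_fin_three]
  have : (0 : ℝ) ≤ Real.pi * 4 / 3 := by positivity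
  simp [ENNReal.toReal_ofReal hs.1, ENNReal.toReal_ofReal this]
  ring

theorem tubeVol_two {s : ℝ} (hs : s ∈ Icc (0 : ℝ) (1 / 2)) :
    tubeVol {0, 1} s = Real.pi * s ^ 2 := by
  rw [tubeVol_eq _ hs.1]
  set D : Set (Fin 2 → ℝ) := WithLp.toLp 2 ⁻¹' Metric.closedBall (0 : EuclideanSpace ℝ (Fin 2)) s
  have e : {x : R3 | (∀ i, |x i| ≤ 1 / 2) ∧ ∑ i ∈ ({0, 1} : Finset (Fin 3)), x i ^ 2 ≤ s ^ 2} =
      MeasurableEquiv.piFinSuccAbove (fun _ : Fin 3 => ℝ) 2 ⁻¹'
        (Icc (-(1 / 2)) (1 / 2) ×ˢ D) := by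
    ext x
    simp only [D, mem_ofPred_eq, mem_preimage, mem_prod, mem_closedBall_zero_iff,
      EuclideanSpace.norm_eq, Real.sqrt_le_left hs.1, Real.norm_eq_abs, sq_abs,
      MeasurableEquiv.piFinSuccAbove_apply, Fin.insertNthEquiv_symm_apply, Fin.sum_univ_two,
      Fin.forall_fin_succ, Fin.forall_fin_zero]
    simp [Fin.removeNth, Fin.succAbove, abs_le]
    intro h
    have h0 : |x 0| ≤ s := abs_le_of_sq_le_sq (by nlinarith) hs.1
    have h1 : |x 1| ≤ s := abs_le_of_sq_le_sq (by nlinarith) hs.1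
    rw [abs_le] at h0 h1
    exact ⟨fun h' => h'.2.2, fun h2 => ⟨⟨by linarith [hs.2], by linarith [hs.2]⟩,
      ⟨by linarith [hs.2], by linarith [hs.2]⟩, h2⟩⟩
  rw [e, Measure.real, (volume_preserving_piFinSuccAbove (fun _ : Fin 3 => ℝ) 2).measure_preimage
    (measurableSet_Icc.prod ((WithLp.measurable_toLp 2 _) measurableSet_closedBall)).nullMeasurableSet,
    Measure.volume_eq_prod, Measure.prod_prod,
    (PiLp.volume_preserving_toLp (Fin 2)).measure_preimage
      measurableSet_closedBall.nullMeasurableSet, EuclideanSpace.volume_closedBall_fin_two]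
  simp [ENNReal.toReal_ofReal hs.1, Real.pi_pos.le]
  norm_num
  ring

/-- The profile is at most the candidate. -/
theorem stmtUpper : StmtUpper := by
  intro V hV
  set v := min V (1 - V) with hv
  have v0 : 0 < v := lt_min hV.1 (by linarith [hV.2])
  have v1 : v ≤ 1 / 2 := by
    rcases le_total V (1 - V) with h | h
    · rw [hv, min_eq_left h]; linarith
    · rw [hv, min_eq_right h]; linarith
  have hsel : ∀ {C : ℝ}, profile v ≤ ENNReal.ofReal C ∧ profile (1 - v) ≤ ENNReal.ofReal C →
      profile V ≤ ENNReal.ofReal C := fun {C} h => by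
    rcases le_total V (1 - V) with h' | h'
    · rw [hv, min_eq_left h'] at h; exact h.1
    · rw [hv, min_eq_right h', sub_sub_cancel] at h; exact h.2
  rw [candidate, ← hv, ENNReal.ofReal_mono.map_min, ENNReal.ofReal_mono.map_min]
  refine le_min (le_min ?_ ?_) ?_
  · set r := (3 * v / (4 * Real.pi)) ^ ((1 : ℝ) / 3) with hr
    have hb : 0 < 3 * v / (4 * Real.pi) := by positivity
    have hr0 : 0 ≤ r := by positivity
    have hr3 : r ^ 3 = 3 * v / (4 * Real.pi) := by
      rw [hr, ← Real.rpow_natCast _ 3, ← Real.rpow_mul hb.le]; norm_num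
    have hr1 : r < 1 / 2 := by
      refine lt_of_pow_lt_pow_left₀ 3 (by norm_num) ?_
      rw [hr3, div_lt_iff₀ (by positivity)]
      nlinarith [Real.pi_gt_three]
    have h := profile_le_tube Finset.univ hr0 hr1 fun s hs => tubeVol_three hs
    have hV' : 4 * Real.pi / 3 * r ^ 3 = v := by
      rw [hr3]; field_simp
    have hP : 4 * Real.pi / 3 * ((3 : ℕ) * r ^ (3 - 1)) =
        (36 * Real.pi) ^ ((1 : ℝ) / 3) * v ^ ((2 : ℝ) / 3) := by
      refine (pow_left_inj₀ (by positivity) (by positivity) (three_ne_zero (α := ℕ))).1 ?_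
      have hx : ∀ x : ℝ, 0 ≤ x → ∀ q : ℝ, (x ^ q) ^ 3 = x ^ (q * 3) := fun x hx q => by
        rw [← Real.rpow_natCast _ 3, ← Real.rpow_mul hx]; norm_num
      rw [mul_pow (_ ^ ((1 : ℝ) / 3)), hx _ (by positivity), hx _ v0.le]
      norm_num
      rw [mul_pow, mul_pow, ← pow_mul, pow_mul r 3 2, hr3]
      field_simp
      ring
    rw [hV', hP] at h
    exact hsel h
  · set r := Real.sqrt (v / Real.pi) with hr
    have hb : 0 < v / Real.pi := by positivity
    have hr1 : r < 1 / 2 := by
      rw [hr, Real.sqrt_lt hb.le (by norm_num), div_lt_iff₀ Real.pi_pos]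
      nlinarith [Real.pi_gt_three]
    have h := profile_le_tube {0, 1} (Real.sqrt_nonneg _) hr1 fun s hs => tubeVol_two hs
    have hV' : Real.pi * r ^ 2 = v := by
      rw [hr, Real.sq_sqrt hb.le]; field_simp
    have hP : Real.pi * ((2 : ℕ) * r ^ (2 - 1)) = 2 * Real.sqrt (Real.pi * v) := by
      norm_num
      rw [hr, show Real.pi * v = Real.pi ^ 2 * (v / Real.pi) by field_simp,
        Real.sqrt_mul (sq_nonneg _), Real.sqrt_sq Real.pi_pos.le]
      ring
    rw [hV', hP] at h
    exact hsel h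
  · have h := profile_le_tube {0} (r := v / 2) (by positivity) (by linarith)
      fun s hs => tubeVol_one hs
    have hV' : 2 * (v / 2) ^ 1 = v := by ring
    have hP : (2 : ℝ) * ((1 : ℕ) * (v / 2) ^ (1 - 1)) = 2 := by norm_num
    rw [hV', hP] at h
    exact hsel h

end Vale.Agent.P232
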