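import Vale.Agent.P232.Lower
import Vale.Agent.P232.Upper
import Vale.Agent.P232.Smooth
import Vale.Agent.P232.Symm.FromCube
import Vale.Agent.P232.Symm.FromSorted

/-!
# P232: assembly of the geometric links
-/

open MeasureTheory Set

namespace Vale.Agent.P232

/-- The profile equals the candidate, given the links of the reduction. -/
theorem profile_eq_candidate_of_links (hU : StmtUpper) (hL : FunIso → StmtLower)
    (hT : CubeIso → FunIso) (hC : SortedIso → CubeIso) (hS : SmoothIso → SortedIso)
    (h : SmoothIso) : ∀ V ∈ Set.Ioo (0 : ℝ) 1, profile V = ENNReal.ofReal (candidate V) :=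
  fun V hV => le_antisymm (hU V hV) (hL (hT (hC (hS h))) V hV)

/-- The profile equals the candidate once the inequality holds for smooth sorted functions. -/
theorem profile_eq_candidate_of_smoothIso (h : SmoothIso) :
    ∀ V ∈ Set.Ioo (0 : ℝ) 1, profile V = ENNReal.ofReal (candidate V) :=
  profile_eq_candidate_of_links stmtUpper lower_of_funIso Symm.funIso_of_cubeIso
    Symm.cubeIso_of_sortedIso sortedIso_of_smoothIso h

end Vale.Agent.P232
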