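import Mathlib

/-!
# P232: the ball-or-tube bound for the one-dimensional slicing problem

For a slice bound `√(π A)`, calibrating with the chord of `√(π A)` between the end values `b^2` and
`a^2` gives `tubeBound a b v`; it is at least the smaller of the ball and tube values, with
equality only for `b = 0` or `a = b`.
-/

open Real intervalIntegral MeasureTheory

namespace Vale.Agent.P232

/-- The chord of `√(π A)` between `A = b^2` and `A = a^2`. -/
noncomputable def chord (a b A : ℝ) : ℝ := √π * (A + a * b) / (a + b)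

/-- The calibration bound for a profile from `a^2` down to `b^2` of mean `v`. -/
noncomputable def tubeBound (a b v : ℝ) : ℝ :=
  chord a b v + ∫ A in b ^ 2..a ^ 2, √(1 - chord a b A ^ 2 / (π * A))

theorem chord_le {a b A : ℝ} (hb : 0 ≤ b) (ha : 0 < a) (h1 : b ^ 2 ≤ A)
    (h2 : A ≤ a ^ 2) : chord a b A ≤ √(π * A) := by
  have hA : 0 ≤ A := le_trans (sq_nonneg b) h1
  obtain ⟨r, hr, rfl⟩ : ∃ r, 0 ≤ r ∧ A = r ^ 2 := ⟨√A, sqrt_nonneg A, (sq_sqrt hA).symm⟩
  have hbr : b ≤ r := (abs_le_abs_of_sq_le hb hr h1)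
  have hra : r ≤ a := (abs_le_abs_of_sq_le hr ha.le h2)
  rw [sqrt_mul pi_pos.le, sqrt_sq hr, chord, div_le_iff₀ (by linarith), mul_assoc]
  refine mul_le_mul_of_nonneg_left ?_ (sqrt_nonneg π)
  nlinarith [mul_nonneg (sub_nonneg.2 hbr) (sub_nonneg.2 hra)]
where
  abs_le_abs_of_sq_le {x y : ℝ} (hx : 0 ≤ x) (hy : 0 ≤ y) (h : x ^ 2 ≤ y ^ 2) : x ≤ y :=
    le_of_pow_le_pow_left₀ two_ne_zero hy h

theorem sqrt_mul_add_le {u w c : ℝ} (hu : 0 ≤ u) (hw : 0 ≤ w) (hc : 0 ≤ c) :
    √(u * w) + c ≤ √((u + c) * (w + c)) := by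
  refine Real.le_sqrt_of_sq_le ?_
  have h : 2 * √(u * w) ≤ u + w := by
    nlinarith [sq_sqrt (mul_nonneg hu hw), sqrt_nonneg (u * w), sq_nonneg (u - w),
      sq_nonneg (u + w - 2 * √(u * w))]
  nlinarith [sq_sqrt (mul_nonneg hu hw), mul_le_mul_of_nonneg_left h hc]

theorem sqrt_ge_poly {y m : ℝ} (hm : 0 < m) (hy : 0 ≤ y) (h : y ≤ m ^ 2) :
    (3 * y * m ^ 2 - y ^ 2) / (2 * m ^ 3) ≤ √y := by
  obtain ⟨w, hw, rfl⟩ : ∃ w, 0 ≤ w ∧ y = w ^ 2 := ⟨√y, sqrt_nonneg y, (sq_sqrt hy).symm⟩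
  rw [sqrt_sq hw, div_le_iff₀ (by positivity)]
  nlinarith [mul_nonneg hw (mul_nonneg (sq_nonneg (m - w)) (by linarith : (0:ℝ) ≤ 2 * m + w))]

theorem integral_semicircle_moment {d : ℝ} (hd : 0 ≤ d) :
    ∫ u in (0 : ℝ)..d, u * √(d ^ 2 - u ^ 2) = d ^ 3 / 3 := by
  have hc : Continuous fun u : ℝ => -((d ^ 2 - u ^ 2) * √(d ^ 2 - u ^ 2)) / 3 := by fun_prop
  rw [integral_eq_sub_of_hasDerivAt_of_le hd hc.continuousOn]
  · have : √(d ^ 2) = d := sqrt_sq hd
    simp [this]
    ring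
  · intro x hx
    have hpos : 0 < d ^ 2 - x ^ 2 := by nlinarith [hx.1, hx.2]
    have h1 : HasDerivAt (fun u : ℝ => d ^ 2 - u ^ 2) (-(2 * x)) x := by
      simpa using ((hasDerivAt_pow 2 x).const_sub (d ^ 2))
    have h2 := ((h1.mul (h1.sqrt hpos.ne')).neg).div_const 3
    refine h2.congr_deriv ?_
    obtain ⟨s, hs, e⟩ : ∃ s, 0 < s ∧ d ^ 2 - x ^ 2 = s ^ 2 :=
      ⟨_, sqrt_pos.2 hpos, (sq_sqrt hpos.le).symm⟩
    rw [e, sqrt_sq hs.le]
    field_simp
    ring
  · exact (continuous_id.mul (by fun_prop)).intervalIntegrable 0 d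

theorem integral_poly_weight (b d : ℝ) (hd : d ≠ 0) :
    ∫ r in b..b + d, (3 * ((b + d - r) * (r - b)) * (d / 2) ^ 2 - ((b + d - r) * (r - b)) ^ 2)
      / (2 * (d / 2) ^ 3) = 11 / 30 * d ^ 2 := by
  have key : ∀ r : ℝ, HasDerivAt
      (fun r : ℝ => (3 * (d / 2) ^ 2 * (d * (r - b) ^ 2 / 2 - (r - b) ^ 3 / 3)
        - (d ^ 2 * (r - b) ^ 3 / 3 - d * (r - b) ^ 4 / 2 + (r - b) ^ 5 / 5)) / (2 * (d / 2) ^ 3))
      ((3 * ((b + d - r) * (r - b)) * (d / 2) ^ 2 - ((b + d - r) * (r - b)) ^ 2)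
        / (2 * (d / 2) ^ 3)) r := by
    intro r
    have h := (hasDerivAt_id r).sub_const b
    have := ((((((h.pow 2).const_mul d).div_const 2).sub ((h.pow 3).div_const 3)).const_mul
      (3 * (d / 2) ^ 2)).sub (((((h.pow 3).const_mul (d ^ 2)).div_const 3).sub
      (((h.pow 4).const_mul d).div_const 2)).add ((h.pow 5).div_const 5))).div_const
      (2 * (d / 2) ^ 3)
    refine this.congr_deriv ?_
    simp only [id_eq]
    ring
  rw [integral_eq_sub_of_hasDerivAt (fun r _ => key r)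
    (Continuous.intervalIntegrable (by fun_prop) _ _)]
  field_simp
  ring

/-- An explicit lower bound for the integral, used for stability. -/
noncomputable def deficitTerm (a b : ℝ) : ℝ :=
  (2 * ((a - b) ^ 3 / 3) + 4 * b * (11 / 30 * (a - b) ^ 2)) / (a + b)

/-- The key integral inequality, for a positive lower end. -/
theorem deficitTerm_le_integral_pos {a b : ℝ} (hb : 0 < b) (hab : b < a) :
    deficitTerm a b ≤ ∫ A in b ^ 2..a ^ 2, √(1 - chord a b A ^ 2 / (π * A)) := by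
  set S : ℝ → ℝ := fun A => √(1 - chord a b A ^ 2 / (π * A)) with hS
  have hs : a + b ≠ 0 := by linarith
  have himg : ContinuousOn S ((fun r : ℝ => r ^ 2) '' Set.uIcc b a) := by
    intro A hA
    obtain ⟨r, hr, rfl⟩ := hA
    rw [Set.uIcc_of_le hab.le] at hr
    have : π * r ^ 2 ≠ 0 := mul_ne_zero pi_pos.ne' (pow_ne_zero 2 (by linarith [hr.1]))
    refine ContinuousAt.continuousWithinAt ?_
    simp only [hS, chord]
    fun_prop (disch := assumption)
  have hsub := integral_comp_mul_deriv' (f := fun r : ℝ => r ^ 2) (f' := fun r => 2 * r) (g := S)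
    (a := b) (b := a) (fun r _ => by simpa using hasDerivAt_pow 2 r) (by fun_prop) himg
  rw [← hsub]
  -- the minorant
  set M : ℝ → ℝ := fun r => (2 * ((r - b) * √((a - b) ^ 2 - (r - b) ^ 2)) + 4 * b *
    ((3 * ((b + (a - b) - r) * (r - b)) * ((a - b) / 2) ^ 2 - ((b + (a - b) - r) * (r - b)) ^ 2)
      / (2 * ((a - b) / 2) ^ 3))) / (a + b) with hM
  have hMi : IntervalIntegrable M volume b a := (by fun_prop : Continuous M).intervalIntegrable _ _
  have hcont : ContinuousOn (fun r => (S ∘ fun r : ℝ => r ^ 2) r * (2 * r)) (Set.uIcc b a) :=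
    (himg.comp (by fun_prop) (Set.mapsTo_image _ _)).mul (by fun_prop)
  have hval : ∫ r in b..a, M r
      = (2 * ((a - b) ^ 3 / 3) + 4 * b * (11 / 30 * (a - b) ^ 2)) / (a + b) := by
    have e1 : ∫ r in b..a, (r - b) * √((a - b) ^ 2 - (r - b) ^ 2) = (a - b) ^ 3 / 3 := by
      rw [integral_comp_sub_right (fun u => u * √((a - b) ^ 2 - u ^ 2)) b, sub_self,
        integral_semicircle_moment (by linarith)]
    have e2 := integral_poly_weight b (a - b) (by linarith)
    rw [add_sub_cancel] at e2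
    simp only [hM, intervalIntegral.integral_div, add_sub_cancel]
    rw [intervalIntegral.integral_add (Continuous.intervalIntegrable (by fun_prop) _ _)
      (Continuous.intervalIntegrable (by fun_prop) _ _), intervalIntegral.integral_const_mul,
      intervalIntegral.integral_const_mul, e1, e2]
  have hpt : ∀ r ∈ Set.Icc b a, M r ≤ (S ∘ fun r : ℝ => r ^ 2) r * (2 * r) := by
    intro r ⟨h1, h2⟩
    have hr : 0 < r := lt_of_lt_of_le hb h1
    have e : (S ∘ fun r : ℝ => r ^ 2) r * (2 * r)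
        = 2 * (√((a - r) * (r - b)) * √((a + r) * (r + b))) / (a + b) := by
      have h0 : 0 ≤ (a - r) * (r - b) := mul_nonneg (by linarith) (by linarith)
      rw [← sqrt_mul h0]
      have : 1 - chord a b (r ^ 2) ^ 2 / (π * r ^ 2)
          = ((a - r) * (r - b) * ((a + r) * (r + b))) / ((a + b) * r) ^ 2 := by
        simp only [chord, div_pow, mul_pow, sq_sqrt pi_pos.le]
        field_simp
        ring
      simp only [hS, Function.comp_apply, this]
      rw [sqrt_div' _ (sq_nonneg _), sqrt_sq (mul_nonneg (by linarith) hr.le)]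
      field_simp
    have hw := sqrt_mul_add_le (u := r - b) (w := a + r - 2 * b) (c := 2 * b)
      (by linarith) (by linarith) (by linarith)
    rw [show r - b + 2 * b = r + b by ring, show a + r - 2 * b + 2 * b = a + r by ring,
      mul_comm (r + b) (a + r)] at hw
    have hp : (3 * ((a - r) * (r - b)) * ((a - b) / 2) ^ 2 - ((a - r) * (r - b)) ^ 2)
        / (2 * ((a - b) / 2) ^ 3) ≤ √((a - r) * (r - b)) :=
      sqrt_ge_poly (by linarith) (mul_nonneg (by linarith) (by linarith))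
        (by nlinarith [sq_nonneg (a + b - 2 * r)])
    have hid : √((a - r) * (r - b)) * √((r - b) * (a + r - 2 * b))
        = (r - b) * √((a - b) ^ 2 - (r - b) ^ 2) := by
      rw [← sqrt_mul (mul_nonneg (by linarith) (by linarith)),
        show (a - r) * (r - b) * ((r - b) * (a + r - 2 * b))
          = (r - b) ^ 2 * ((a - b) ^ 2 - (r - b) ^ 2) by ring,
        sqrt_mul (sq_nonneg _), sqrt_sq (by linarith)]
    rw [e, hM]
    simp only [add_sub_cancel]
    refine (div_le_div_iff_of_pos_right (by linarith)).2 ?_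
    nlinarith [mul_le_mul_of_nonneg_left hw (sqrt_nonneg ((a - r) * (r - b))),
      mul_le_mul_of_nonneg_left hp hb.le, hid]
  rw [deficitTerm, ← hval]
  exact intervalIntegral.integral_mono_on hab.le hMi hcont.intervalIntegrable hpt

theorem two_thirds_lt_deficitTerm {a b : ℝ} (hb : 0 < b) (hab : b < a) :
    2 / 3 * (a - b) ^ 2 < deficitTerm a b := by
  rw [deficitTerm, lt_div_iff₀ (by linarith)]
  nlinarith [mul_pos hb (pow_pos (sub_pos.2 hab) 2)]

theorem two_thirds_lt_integral {a b : ℝ} (hb : 0 < b) (hab : b < a) :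
    2 / 3 * (a - b) ^ 2 < ∫ A in b ^ 2..a ^ 2, √(1 - chord a b A ^ 2 / (π * A)) :=
  (two_thirds_lt_deficitTerm hb hab).trans_le (deficitTerm_le_integral_pos hb hab)

theorem integral_chord_zero {a : ℝ} (ha : 0 < a) :
    ∫ A in (0 : ℝ) ^ 2..a ^ 2, √(1 - chord a 0 A ^ 2 / (π * A)) = 2 / 3 * a ^ 2 := by
  have e : ∀ A : ℝ, √(1 - chord a 0 A ^ 2 / (π * A)) = √(1 - A / a ^ 2) := by
    intro A
    rcases eq_or_ne A 0 with rfl | hA
    · simp [chord]
    · congr 1
      simp only [chord, mul_zero, add_zero, div_pow, mul_pow, sq_sqrt pi_pos.le]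
      field_simp
  simp only [e, ne_eq, OfNat.ofNat_ne_zero, not_false_eq_true, zero_pow]
  have hc : Continuous fun A : ℝ => -(2 * a ^ 2 / 3) * ((1 - A / a ^ 2) * √(1 - A / a ^ 2)) := by
    fun_prop
  rw [integral_eq_sub_of_hasDerivAt_of_le (by positivity) hc.continuousOn]
  · rw [div_self (by positivity : a ^ 2 ≠ 0)]
    simp
    ring
  · intro x hx
    have hpos : 0 < 1 - x / a ^ 2 := by
      rw [sub_pos, div_lt_one (by positivity)]
      exact hx.2
    have h1 : HasDerivAt (fun A : ℝ => 1 - A / a ^ 2) (-(1 / a ^ 2)) x :=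
      ((hasDerivAt_id x).div_const (a ^ 2)).const_sub 1
    refine ((h1.mul (h1.sqrt hpos.ne')).const_mul (-(2 * a ^ 2 / 3))).congr_deriv ?_
    obtain ⟨s, hs, e⟩ : ∃ s, 0 < s ∧ 1 - x / a ^ 2 = s ^ 2 :=
      ⟨_, sqrt_pos.2 hpos, (sq_sqrt hpos.le).symm⟩
    rw [e, sqrt_sq hs.le]
    field_simp
    ring
  · exact Continuous.intervalIntegrable (by fun_prop) _ _

theorem two_thirds_le_integral {a b : ℝ} (hb : 0 ≤ b) (hab : b ≤ a) (ha : 0 < a) :
    2 / 3 * (a - b) ^ 2 ≤ ∫ A in b ^ 2..a ^ 2, √(1 - chord a b A ^ 2 / (π * A)) := by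
  rcases hb.eq_or_lt with rfl | hb
  · rw [integral_chord_zero ha, sub_zero]
  · rcases hab.eq_or_lt with rfl | hab
    · simp
    · exact (two_thirds_lt_integral hb hab).le

/-- Young's inequality for the ball value. -/
theorem ball_le_line {v m : ℝ} (hv : 0 ≤ v) (hm : 0 < m) :
    (9 * π / 2) ^ ((1 : ℝ) / 3) * v ^ ((2 : ℝ) / 3) ≤ m * v + 2 * π / (3 * m ^ 2) := by
  refine le_of_pow_le_pow_left₀ three_ne_zero (by positivity) ?_
  rw [mul_pow, ← rpow_natCast ((9 * π / 2) ^ ((1 : ℝ) / 3)) 3, ← rpow_mul (by positivity),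
    ← rpow_natCast (v ^ ((2 : ℝ) / 3)) 3, ← rpow_mul hv]
  norm_num
  set x := m * v / 2 with hx
  set y := 2 * π / (3 * m ^ 2) with hy
  have hy0 : 0 ≤ y := by positivity
  have hx0 : 0 ≤ x := by positivity
  have h : 9 * π / 2 * v ^ 2 = 27 * x ^ 2 * y := by
    rw [hx, hy]
    field_simp
    ring
  rw [h, show m * v + y = 2 * x + y by rw [hx]; ring]
  nlinarith [mul_nonneg (sq_nonneg (x - y)) (by positivity : (0:ℝ) ≤ 8 * x + y)]

/-- Young's inequality for the tube value. -/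
theorem tube_le_line {v m : ℝ} (hv : 0 ≤ v) (hm : 0 < m) :
    √(π * v) ≤ m * v + π / (4 * m) := by
  rw [Real.sqrt_le_left (by positivity)]
  have e : π * v = 4 * (m * v) * (π / (4 * m)) := by field_simp
  nlinarith [sq_nonneg (m * v - π / (4 * m))]

/-- The chord value plus `2/3 (a - b)²` is at least the ball or the tube value. -/
theorem min_le_chord_add {a b v : ℝ} (hb : 0 ≤ b) (ha : 0 < a) (hv : 0 ≤ v) :
    min ((9 * π / 2) ^ ((1 : ℝ) / 3) * v ^ ((2 : ℝ) / 3)) (√(π * v))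
      ≤ chord a b v + 2 / 3 * (a - b) ^ 2 := by
  have hs : 0 < a + b := by linarith
  have hπ := sqrt_pos.2 pi_pos
  have hsq := sq_sqrt pi_pos.le
  have hm : 0 < √π / (a + b) := by positivity
  have e1 : 2 * π / (3 * (√π / (a + b)) ^ 2) = 2 / 3 * (a + b) ^ 2 := by
    rw [div_pow, hsq]
    field_simp
  have e2 : π / (4 * (√π / (a + b))) = √π * (a + b) / 4 := by
    field_simp
    linarith [hsq]
  have e3 : chord a b v = √π / (a + b) * v + √π * (a * b) / (a + b) := by
    simp only [chord]; ring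
  have h1 := ball_le_line hv hm
  have h2 := tube_le_line hv hm
  rw [e1] at h1
  rw [e2] at h2
  rw [e3]
  rcases le_total (√π) (8 / 3 * (a + b)) with hle | hle
  · refine (min_le_right _ _).trans (h2.trans ?_)
    have : √π * (a + b) / 4 ≤ √π * (a * b) / (a + b) + 2 / 3 * (a - b) ^ 2 := by
      rw [div_add' _ _ _ hs.ne', div_le_div_iff₀ (by norm_num) hs]
      nlinarith [mul_le_mul_of_nonneg_right hle (sq_nonneg (a - b))]
    linarith
  · refine (min_le_left _ _).trans (h1.trans ?_)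
    have : 2 / 3 * (a + b) ^ 2 ≤ √π * (a * b) / (a + b) + 2 / 3 * (a - b) ^ 2 := by
      rw [div_add' _ _ _ hs.ne', le_div_iff₀ hs]
      nlinarith [mul_le_mul_of_nonneg_right hle (mul_nonneg hb ha.le)]
    linarith

/-- The chord bound is at least the ball or the tube value. -/
theorem min_le_tubeBound {a b v : ℝ} (hb : 0 ≤ b) (hab : b ≤ a) (ha : 0 < a) (hv : 0 ≤ v) :
    min ((9 * π / 2) ^ ((1 : ℝ) / 3) * v ^ ((2 : ℝ) / 3)) (√(π * v)) ≤ tubeBound a b v :=
  (min_le_chord_add hb ha hv).trans (add_le_add_right (two_thirds_le_integral hb hab ha) _)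

/-- Away from balls and tubes the chord bound is strict. -/
theorem min_lt_tubeBound {a b v : ℝ} (hb : 0 < b) (hab : b < a) (hv : 0 ≤ v) :
    min ((9 * π / 2) ^ ((1 : ℝ) / 3) * v ^ ((2 : ℝ) / 3)) (√(π * v)) < tubeBound a b v :=
  (min_le_chord_add hb.le (hb.trans hab) hv).trans_lt
    (add_lt_add_of_le_of_lt le_rfl (two_thirds_lt_integral hb hab))

theorem deficitTerm_le_integral {a b : ℝ} (hb : 0 ≤ b) (hab : b ≤ a) (ha : 0 < a) :
    deficitTerm a b ≤ ∫ A in b ^ 2..a ^ 2, √(1 - chord a b A ^ 2 / (π * A)) := by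
  rcases hb.eq_or_lt with rfl | hb
  · rw [integral_chord_zero ha, deficitTerm]
    refine le_of_eq ?_
    field_simp
    ring
  · rcases hab.eq_or_lt with rfl | hab
    · simp [deficitTerm]
    · exact deficitTerm_le_integral_pos hb hab

/-- With a zero lower end equality needs the radius of the ball. -/
theorem ball_lt_line {v m : ℝ} (hv : 0 ≤ v) (hm : 0 < m) (h : 3 * m ^ 3 * v ≠ 4 * π) :
    (9 * π / 2) ^ ((1 : ℝ) / 3) * v ^ ((2 : ℝ) / 3) < m * v + 2 * π / (3 * m ^ 2) := by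
  refine lt_of_pow_lt_pow_left₀ 3 (by positivity) ?_
  rw [mul_pow, ← rpow_natCast ((9 * π / 2) ^ ((1 : ℝ) / 3)) 3, ← rpow_mul (by positivity),
    ← rpow_natCast (v ^ ((2 : ℝ) / 3)) 3, ← rpow_mul hv]
  norm_num
  set x := m * v / 2 with hx
  set y := 2 * π / (3 * m ^ 2) with hy
  have hy0 : 0 < y := by positivity
  have hxy : x - y ≠ 0 := by
    intro e
    apply h
    rw [hx, hy] at e
    field_simp at e
    linarith
  have h' : 9 * π / 2 * v ^ 2 = 27 * x ^ 2 * y := by
    rw [hx, hy]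
    field_simp
    ring
  rw [h', show m * v + y = 2 * x + y by rw [hx]; ring]
  have hx0 : 0 ≤ x := by positivity
  nlinarith [mul_pos (sq_pos_of_ne_zero hxy) (by positivity : (0:ℝ) < 8 * x + y)]

/-- The pointwise calibration: `√(p^2 + t^2)` dominates `g + √(1 - g^2/p^2) |t|`. -/
theorem calibration_le {p g t : ℝ} (hp : 0 < p) (hg : |g| ≤ p) :
    g + √(1 - g ^ 2 / p ^ 2) * |t| ≤ √(p ^ 2 + t ^ 2) := by
  have h1 : g ^ 2 / p ^ 2 ≤ 1 := by
    rw [div_le_one (by positivity)]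
    nlinarith [abs_le.1 hg, sq_abs g, abs_nonneg g]
  refine Real.le_sqrt_of_sq_le ?_
  have hs := sq_sqrt (sub_nonneg.2 h1)
  set s := √(1 - g ^ 2 / p ^ 2) with hsd
  have e : g ^ 2 = (1 - s ^ 2) * p ^ 2 := by
    rw [hs]
    field_simp
    ring
  nlinarith [sq_nonneg (g * |t| - p ^ 2 * s), sq_nonneg (|t|), sq_abs t,
    mul_pos hp hp, sq_nonneg (p * s)]

end Vale.Agent.P232
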