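import Vale.Agent.P232.Torus

/-!
# P232: the functional forms of the isoperimetric inequality used between the modules
-/

open MeasureTheory Set

namespace Vale.Agent.P232

/-- A partial derivative. -/
noncomputable def pd (f : R3 → ℝ) (i : Fin 3) (x : R3) : ℝ := fderiv ℝ f x (Pi.single i 1)

/-- The Euclidean norm of the gradient. -/
noncomputable def gradNorm (f : R3 → ℝ) (x : R3) : ℝ := Real.sqrt (∑ i, pd f i x ^ 2)

/-- The volume in the cube of a superlevel set. -/
noncomputable def levelVol (f : R3 → ℝ) (t : ℝ) : ℝ := volume.real {x ∈ cube | t < f x}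

/-- The candidate in the cube, relative perimeter: half of the torus candidate. -/
noncomputable def cubeCandidate (v : ℝ) : ℝ := candidate v / 2

/-- Coordinatewise nonincreasing on the cube. -/
def CubeAntitone (g : R3 → ℝ) : Prop := AntitoneOn g cube

/-- The values prefer the coordinates in the order `0, 1, 2`: moving the larger of two
coordinates to the earlier place does not decrease the value. -/
def CubeSorted (g : R3 → ℝ) : Prop :=
  ∀ p ∈ cube, ∀ i j : Fin 3, i < j → p i ≤ p j → g p ≤ g (p ∘ Equiv.swap i j)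

/-- The functional isoperimetric inequality on the torus. -/
def FunIso : Prop :=
  ∀ (L : NNReal) (f : R3 → ℝ), LipschitzWith L f → IsPeriodic f → (∀ x, f x ∈ Set.Icc (0 : ℝ) 1) →
    ∫ t in (0 : ℝ)..1, candidate (levelVol f t) ≤ ∫ x in cube, gradNorm f x

/-- The inequality in the cube for nonincreasing Lipschitz functions. -/
def CubeIso : Prop :=
  ∀ (L : NNReal) (g : R3 → ℝ), LipschitzWith L g → (∀ x, g x ∈ Set.Icc (0 : ℝ) 1) →
    CubeAntitone g →
    ∫ t in (0 : ℝ)..1, cubeCandidate (levelVol g t) ≤ ∫ x in cube, gradNorm g x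

/-- The inequality in the cube for nonincreasing sorted Lipschitz functions. -/
def SortedIso : Prop :=
  ∀ (L : NNReal) (g : R3 → ℝ), LipschitzWith L g → (∀ x, g x ∈ Set.Icc (0 : ℝ) 1) →
    CubeAntitone g → CubeSorted g →
    ∫ t in (0 : ℝ)..1, cubeCandidate (levelVol g t) ≤ ∫ x in cube, gradNorm g x

/-- The inequality in the cube for smooth strictly decreasing sorted functions. -/
def SmoothIso : Prop :=
  ∀ g : R3 → ℝ, ContDiff ℝ 1 g → (∀ x ∈ cube, g x ∈ Set.Icc (0 : ℝ) 1) →
    (∀ x ∈ cube, ∀ i, pd g i x < 0) → CubeSorted g →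
    ∫ t in (0 : ℝ)..1, cubeCandidate (levelVol g t) ≤ ∫ x in cube, gradNorm g x

/-- Upper bound: the profile is at most the candidate. -/
def StmtUpper : Prop := ∀ V ∈ Set.Ioo (0 : ℝ) 1, profile V ≤ ENNReal.ofReal (candidate V)

/-- Lower bound: the candidate is at most the perimeter of every competitor. -/
def StmtLower : Prop := ∀ V ∈ Set.Ioo (0 : ℝ) 1, ENNReal.ofReal (candidate V) ≤ profile V

end Vale.Agent.P232
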