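import Vale.Agent.P232.Periodic

/-!
# P232: from periodic Lipschitz functions to sets

Mollifying the indicator of a periodic set of finite perimeter gives periodic smooth functions with
total gradient at most the perimeter, whose levels converge in volume. Hence the functional
inequality implies the lower bound for all sets.
-/

open MeasureTheory Set Filter ContinuousLinearMap
open scoped Topology Convolution ENNReal ContDiff

namespace Vale.Agent.P232

theorem continuous_candidate : Continuous candidate := by
  unfold candidate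
  have h := Real.continuous_rpow_const (q := (2 : ℝ) / 3) (by norm_num)
  fun_prop

theorem candidate_nonneg {V : ℝ} (h0 : 0 ≤ V) (h1 : V ≤ 1) : 0 ≤ candidate V := by
  have : 0 ≤ min V (1 - V) := le_min h0 (by linarith)
  unfold candidate
  positivity

theorem candidate_le_two (V : ℝ) : candidate V ≤ 2 := min_le_right _ _

theorem levelVol_mem (f : R3 → ℝ) (t : ℝ) : levelVol f t ∈ Icc (0 : ℝ) 1 := by
  refine ⟨measureReal_nonneg, volume_real_cube ▸ measureReal_mono (sep_subset _ _) ?_⟩
  rw [volume_cube]; exact ENNReal.one_ne_top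

theorem levelVol_antitone (f : R3 → ℝ) : Antitone (levelVol f) := fun s t hst =>
  measureReal_mono (fun x hx => ⟨hx.1, lt_of_le_of_lt hst hx.2⟩)
    (ne_top_of_le_ne_top (volume_cube ▸ ENNReal.one_ne_top) (measure_mono (sep_subset _ _)))

theorem levelVol_eq (f : R3 → ℝ) (hf : Measurable f) (t : ℝ) :
    levelVol f t = (volume.restrict cube).real {x | t < f x} := by
  rw [levelVol, measureReal_restrict_apply (measurableSet_lt measurable_const hf), inter_comm]
  rfl

/-- The integrals of the candidate at the levels converge. -/
theorem tendsto_integral_candidate {f : ℕ → R3 → ℝ} (hf : ∀ k, Measurable (f k)) {E : Set R3}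
    (hE : MeasurableSet E) {V : ℝ} (hV : volume.real (E ∩ cube) = V)
    (hlim : ∀ᵐ x ∂volume, Tendsto (fun k => f k x) atTop (𝓝 (E.indicator (fun _ => (1 : ℝ)) x))) :
    Tendsto (fun k => ∫ t in (0 : ℝ)..1, candidate (levelVol (f k) t)) atTop
      (𝓝 (candidate V)) := by
  have hpt : ∀ t ∈ Ioo (0 : ℝ) 1,
      Tendsto (fun k => levelVol (f k) t) atTop (𝓝 V) := fun t ht => by
    simp only [levelVol_eq _ (hf _)]
    rw [← hV, ← measureReal_restrict_apply hE]
    refine (ENNReal.tendsto_toReal (measure_ne_top _ _)).comp
      (tendsto_measure_of_ae_tendsto_indicator_of_isFiniteMeasure atTop hE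
        (fun k => measurableSet_lt measurable_const (hf k)) ?_)
    filter_upwards [ae_restrict_of_ae hlim] with x hx
    by_cases h : x ∈ E
    · rw [indicator_of_mem h] at hx
      filter_upwards [hx.eventually (eventually_gt_nhds ht.2)] with k hk
      exact iff_of_true hk h
    · rw [indicator_of_notMem h] at hx
      filter_upwards [hx.eventually (eventually_lt_nhds ht.1)] with k hk
      exact iff_of_false (not_lt.2 hk.le) h
  have e : candidate V = ∫ _t in (0 : ℝ)..1, candidate V := by simp
  rw [e]
  refine intervalIntegral.tendsto_integral_filter_of_dominated_convergence (fun _ => 2) ?_ ?_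
    intervalIntegrable_const ?_
  · exact Eventually.of_forall fun k =>
      (continuous_candidate.measurable.comp
        (levelVol_antitone (f k)).measurable).aestronglyMeasurable
  · refine Eventually.of_forall fun k => Eventually.of_forall fun t _ => ?_
    have h := levelVol_mem (f k) t
    rw [Real.norm_eq_abs, abs_of_nonneg (candidate_nonneg h.1 h.2)]
    exact candidate_le_two _
  · have h1 : ∀ᵐ t : ℝ ∂volume, t ≠ 1 := by simp [ae_iff]
    filter_upwards [h1] with t ht1 ht
    rw [uIoc_of_le zero_le_one] at ht
    exact (continuous_candidate.tendsto _).comp (hpt t ⟨ht.1, lt_of_le_of_ne ht.2 ht1⟩)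

/-- The mollifiers. -/
noncomputable def bump (k : ℕ) : ContDiffBump (0 : R3) where
  rIn := 1 / ((k : ℝ) + 2)
  rOut := 2 / ((k : ℝ) + 2)
  rIn_pos := by positivity
  rIn_lt_rOut := by gcongr; norm_num

/-- The mollified indicator. -/
noncomputable def mollify (E : Set R3) (k : ℕ) : R3 → ℝ :=
  (bump k).normed volume ⋆[lsmul ℝ ℝ, (volume : Measure R3)] E.indicator fun _ => (1 : ℝ)

theorem locallyIntegrable_indicator_one {E : Set R3} (hE : MeasurableSet E) :
    LocallyIntegrable (E.indicator fun _ => (1 : ℝ)) (volume : Measure R3) :=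
  (locallyIntegrable_const (1 : ℝ)).indicator hE

theorem contDiff_mollify {E : Set R3} (hE : MeasurableSet E) (k : ℕ) :
    ContDiff ℝ 2 (mollify E k) :=
  (bump k).hasCompactSupport_normed.contDiff_convolution_left _
    ((bump k).contDiff_normed (n := 2)) (locallyIntegrable_indicator_one hE)

theorem mollify_apply (E : Set R3) (k : ℕ) (x : R3) : mollify E k x =
    ∫ t, (bump k).normed volume t * E.indicator (fun _ => (1 : ℝ)) (x - t) := rfl

theorem indicator_shift {E : Set R3} (hp : IsPeriodic fun x => x ∈ E) (x t : R3) (z : Fin 3 → ℤ) :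
    E.indicator (fun _ => (1 : ℝ)) (x + (fun i => (z i : ℝ)) - t) =
      E.indicator (fun _ => (1 : ℝ)) (x - t) := by
  classical
  have h := hp (x - t) z
  rw [sub_add_eq_add_sub] at h
  rw [Set.indicator_apply, Set.indicator_apply]
  exact if_congr (eq_iff_iff.1 h) rfl rfl

theorem isPeriodic_mollify {E : Set R3} (hp : IsPeriodic fun x => x ∈ E) (k : ℕ) :
    IsPeriodic (mollify E k) := fun x z => by
  rw [mollify_apply, mollify_apply]
  refine integral_congr_ae (Eventually.of_forall fun t => ?_)
  simp only [indicator_shift hp]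

theorem mollify_mem_Icc {E : Set R3} (k : ℕ) (x : R3) : mollify E k x ∈ Icc (0 : ℝ) 1 := by
  have h01 : ∀ y, E.indicator (fun _ => (1 : ℝ)) y ∈ Icc (0 : ℝ) 1 := fun y =>
    ⟨indicator_nonneg (fun _ _ => zero_le_one) y,
      indicator_le_self' (fun _ _ => zero_le_one) y⟩
  rw [mollify_apply]
  refine ⟨integral_nonneg fun t => mul_nonneg ((bump k).nonneg_normed t) (h01 _).1, ?_⟩
  refine le_trans (integral_mono_of_nonneg ?_ (bump k).integrable_normed ?_)
    ((bump k).integral_normed (μ := volume)).le
  · exact Eventually.of_forall fun t => mul_nonneg ((bump k).nonneg_normed t) (h01 _).1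
  · exact Eventually.of_forall fun t => mul_le_of_le_one_right ((bump k).nonneg_normed t) (h01 _).2

theorem ae_tendsto_mollify {E : Set R3} (hE : MeasurableSet E) :
    ∀ᵐ x ∂volume, Tendsto (fun k => mollify E k x) atTop
      (𝓝 (E.indicator (fun _ => (1 : ℝ)) x)) := by
  refine ContDiffBump.ae_convolution_tendsto_right_of_locallyIntegrable (φ := bump) (K := 2) ?_ ?_
    (locallyIntegrable_indicator_one hE)
  · exact tendsto_const_nhds.div_atTop
      (tendsto_atTop_add_const_right _ _ tendsto_natCast_atTop_atTop)
  · exact Eventually.of_forall fun k => le_of_eq (by simp [bump]; ring)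

theorem TestField.comp_add {φ : R3 → R3} (hφ : TestField φ) (a : R3) :
    TestField fun x => φ (x + a) :=
  ⟨hφ.1.comp (contDiff_id.add contDiff_const), hφ.2.1.comp_add a, fun _ => hφ.2.2 _⟩

theorem TestField.neg {φ : R3 → R3} (hφ : TestField φ) : TestField fun x => -φ x :=
  ⟨hφ.1.neg, hφ.2.1.comp Neg.neg, fun x => by simpa using hφ.2.2 x⟩

theorem divg_comp_add (φ : R3 → R3) (a x : R3) : divg (fun y => φ (y + a)) x = divg φ (x + a) := by
  simp only [divg, fderiv_comp_add_right]

theorem divg_neg (φ : R3 → R3) (x : R3) : divg (fun y => -φ y) x = -divg φ x := by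
  simp only [divg, fderiv_fun_neg, neg_apply, Pi.neg_apply, Finset.sum_neg_distrib]

theorem abs_indicator_one_le (E : Set R3) (y : R3) :
    |E.indicator (fun _ => (1 : ℝ)) y| ≤ 1 := by
  classical
  rw [Set.indicator_apply]; split_ifs <;> simp

/-- Fubini: the flux through the mollified indicator averages fluxes of translates. -/
theorem integral_mollify_mul {E : Set R3} (hE : MeasurableSet E)
    (hp : IsPeriodic fun x => x ∈ E) (k : ℕ) {D : R3 → ℝ} (hD : Continuous D)
    (hDp : IsPeriodic D) :
    ∫ x in cube, mollify E k x * D x =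
      ∫ t, (bump k).normed volume t * ∫ x in E ∩ cube, D (x + t) := by
  obtain ⟨C, hC⟩ := isCompact_cube.exists_bound_of_continuousOn hD.continuousOn
  have hg : Measurable (E.indicator fun _ => (1 : ℝ)) := measurable_const.indicator hE
  simp only [mollify_apply, ← integral_mul_const]
  have hF : Integrable (fun p : R3 × R3 => (bump k).normed volume p.2 *
      E.indicator (fun _ => (1 : ℝ)) (p.1 - p.2) * D p.1)
      ((volume.restrict cube).prod volume) := by
    refine Integrable.mono' ((integrable_const C).mul_prod (bump k).integrable_normed)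
      ((((bump k).continuous_normed.measurable.comp measurable_snd).mul
        (hg.comp (measurable_fst.sub measurable_snd))).mul
          (hD.measurable.comp measurable_fst)).aestronglyMeasurable ?_
    rw [Measure.ae_prod_iff_ae_ae (measurableSet_le ?_ ?_)]
    · filter_upwards [ae_restrict_mem measurableSet_cube] with x hx
      refine Eventually.of_forall fun t => ?_
      rw [norm_mul, norm_mul, Real.norm_eq_abs,
        abs_of_nonneg ((bump k).nonneg_normed t), mul_comm C]
      exact mul_le_mul (mul_le_of_le_one_right ((bump k).nonneg_normed t)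
        (abs_indicator_one_le E _)) (hC x hx) (norm_nonneg _) ((bump k).nonneg_normed t)
    · exact (((bump k).continuous_normed.measurable.comp measurable_snd).mul
        (hg.comp (measurable_fst.sub measurable_snd))).mul (hD.measurable.comp measurable_fst)
        |>.norm
    · exact measurable_const.mul ((bump k).continuous_normed.measurable.comp measurable_snd)
  rw [integral_integral_swap hF]
  refine integral_congr_ae (Eventually.of_forall fun t => ?_)
  simp only [mul_assoc]
  rw [integral_const_mul]
  congr 1
  have hper : IsPeriodic fun x => E.indicator (fun _ => (1 : ℝ)) (x - t) * D x := fun x z => by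
    simp only [indicator_shift hp, hDp x z]
  rw [← setIntegral_comp_add hper t, inter_comm, ← setIntegral_indicator hE]
  refine setIntegral_congr_fun measurableSet_cube fun x _ => ?_
  by_cases h : x ∈ E <;> simp [h]

theorem le_sqrt_add_div {S η : ℝ} (hS : 0 ≤ S) (hη : 0 < η) :
    Real.sqrt S - Real.sqrt η ≤ S / Real.sqrt (η + S) := by
  have h1 := Real.sqrt_pos.2 (show 0 < η + S by linarith)
  rw [le_div_iff₀ h1]
  have h2 := Real.sqrt_le_sqrt (show S ≤ η + S by linarith)
  have h3 := Real.sqrt_le_sqrt (show η ≤ η + S by linarith)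
  nlinarith [Real.mul_self_sqrt hS, Real.mul_self_sqrt hη.le,
    Real.mul_self_sqrt (show 0 ≤ η + S by linarith), Real.sqrt_nonneg S, Real.sqrt_nonneg η]

/-- The regularised unit gradient field. -/
noncomputable def unitField (f : R3 → ℝ) (η : ℝ) (x : R3) : R3 :=
  fun i => pd f i x / Real.sqrt (η + ∑ j, pd f j x ^ 2)

theorem contDiff_pd {f : R3 → ℝ} (hf : ContDiff ℝ 2 f) (i : Fin 3) :
    ContDiff ℝ 1 (pd f i) :=
  (hf.fderiv_right (by norm_num)).clm_apply contDiff_const

theorem isPeriodic_pd {f : R3 → ℝ} (hp : IsPeriodic f) (i : Fin 3) :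
    IsPeriodic (pd f i) := fun x k => by
  unfold pd
  rw [← fderiv_comp_add_right]
  exact congrArg (fun g : R3 → ℝ => fderiv ℝ g x (Pi.single i 1)) (funext fun y => hp y k)

theorem testField_unitField {f : R3 → ℝ} (hf : ContDiff ℝ 2 f) (hp : IsPeriodic f) {η : ℝ}
    (hη : 0 < η) : TestField (unitField f η) := by
  have hpos : ∀ x, 0 < η + ∑ j, pd f j x ^ 2 := fun x => by positivity
  refine ⟨contDiff_pi.2 fun i => ?_, fun x k => ?_, fun x => ?_⟩
  · exact (contDiff_pd hf i).div ((contDiff_const.add
      (ContDiff.sum fun j _ => (contDiff_pd hf j).pow 2)).sqrt fun x => (hpos x).ne')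
      fun x => (Real.sqrt_pos.2 (hpos x)).ne'
  · funext i
    simp only [unitField, isPeriodic_pd hp _ x k]
  · simp only [unitField, div_pow, Real.sq_sqrt (hpos x).le, ← Finset.sum_div]
    exact (div_le_one (hpos x)).2 (by linarith)

/-- The mollified indicators have total gradient at most the perimeter. -/
theorem integral_gradNorm_mollify_le {E : Set R3} (hE : MeasurableSet E)
    (hp : IsPeriodic fun x => x ∈ E) {P : ℝ}
    (hP : ∀ φ, TestField φ → ∫ x in E ∩ cube, divg φ x ≤ P) (k : ℕ) :
    ∫ x in cube, gradNorm (mollify E k) x ≤ P := by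
  have hf2 := contDiff_mollify hE k
  have hpf := isPeriodic_mollify hp k
  obtain ⟨L, hL, -⟩ := hpf.exists_lipschitz (hf2.of_le one_le_two)
  refine le_of_forall_pos_le_add fun ε hε => ?_
  have hη : (0 : ℝ) < ε ^ 2 := by positivity
  have hψ := testField_unitField hf2 hpf hη
  have hflux : ∫ x in cube, ∑ i, pd (mollify E k) i x * unitField (mollify E k) (ε ^ 2) x i ≤ P := by
    rw [← neg_neg (∫ x in cube, ∑ i, pd _ i x * _), ← integral_mul_divg hL hpf hψ,
      integral_mollify_mul hE hp k (continuous_divg hψ.1) (isPeriodic_divg hψ.2.1),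
      ← integral_neg]
    have hP0 : 0 ≤ P := by
      have h := hP 0 ⟨contDiff_const, fun _ _ => rfl, fun x => by simp⟩
      simpa [divg] using h
    by_cases hi : Integrable fun t => -((bump k).normed volume t *
        ∫ x in E ∩ cube, divg (unitField (mollify E k) (ε ^ 2)) (x + t))
    · refine (integral_mono hi ((bump k).integrable_normed.mul_const P) fun t => ?_).trans_eq ?_
      · rw [← mul_neg, ← integral_neg]
        refine mul_le_mul_of_nonneg_left ?_ ((bump k).nonneg_normed t)
        refine le_of_eq_of_le ?_ (hP _ (hψ.comp_add t).neg)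
        simp only [divg_neg, divg_comp_add]
      · rw [integral_mul_const, (bump k).integral_normed, one_mul]
    · rw [integral_undef hi]; exact hP0
  have hG := integrableOn_gradNorm hL
  have hI : IntegrableOn (fun x => ∑ i, pd (mollify E k) i x *
      unitField (mollify E k) (ε ^ 2) x i) cube :=
    (continuous_finsetSum _ fun i _ => (contDiff_pd hf2 i).continuous.mul
      ((continuous_apply i).comp hψ.1.continuous)).continuousOn.integrableOn_compact isCompact_cube
  refine le_trans ?_ (add_le_add hflux le_rfl)
  have he : ∫ _x in cube, ε = ε := by simp [volume_real_cube]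
  suffices hm : ∫ x in cube, (gradNorm (mollify E k) x - ε) ≤
      ∫ x in cube, ∑ i, pd (mollify E k) i x * unitField (mollify E k) (ε ^ 2) x i by
    rw [integral_sub hG (integrable_const ε), he] at hm
    linarith
  refine integral_mono (hG.sub (integrable_const ε)) hI fun x => ?_
  have h := le_sqrt_add_div (S := ∑ i, pd (mollify E k) i x ^ 2)
    (Finset.sum_nonneg fun i _ => sq_nonneg _) hη
  rw [Real.sqrt_sq hε.le, Finset.sum_div] at h
  refine h.trans_eq (Finset.sum_congr rfl fun i _ => ?_)
  simp only [unitField]
  ring

/-- The functional inequality implies the lower bound for all sets. -/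
theorem lower_of_funIso (h : FunIso) : StmtLower := by
  intro V hV
  refine le_iInf₂ fun E hE => ?_
  by_cases htop : perimeter E = ⊤
  · rw [htop]; exact le_top
  obtain ⟨hm, hp, hvol⟩ := hE
  have hP : ∀ φ, TestField φ → ∫ x in E ∩ cube, divg φ x ≤ (perimeter E).toReal := fun φ hφ =>
    (ENNReal.ofReal_le_iff_le_toReal htop).1 (le_perimeter hφ)
  refine (ENNReal.ofReal_le_iff_le_toReal htop).2 ?_
  have hV' : volume.real (E ∩ cube) = V := by
    rw [Measure.real, hvol, ENNReal.toReal_ofReal hV.1.le]
  refine le_of_tendsto' (tendsto_integral_candidate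
    (fun k => (contDiff_mollify hm k).continuous.measurable) hm hV' (ae_tendsto_mollify hm))
    fun k => ?_
  obtain ⟨L, hL, -⟩ :=
    (isPeriodic_mollify hp k).exists_lipschitz ((contDiff_mollify hm k).of_le one_le_two)
  exact (h L _ hL (isPeriodic_mollify hp k) (mollify_mem_Icc k)).trans
    (integral_gradNorm_mollify_le hm hp hP k)

end Vale.Agent.P232
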