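import Vale.Agent.P232.Assembly
import Vale.Agent.P232.Slice.Level
import Vale.Agent.P232.Slice.Cal
import Vale.Agent.P232.Slice.Planar
import Vale.Agent.P232.OneDim.CaseC

/-!
# P232: the profile equals the candidate, given the one-dimensional inequality of case B
-/

open MeasureTheory Set

namespace Vale.Agent.P232

/-- The smooth functional inequality, from case B. -/
theorem smoothIso_of_caseB (hB : StmtCaseB) : SmoothIso :=
  smoothIso_of_level stmtCoarea
    (stmtLevel_of stmtCoarea stmtSlice stmtPlanarNone stmtPlanarOne stmtPlanarBoth
      tiltConst_077 stmtCaseC hB)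

/-- The profile equals the candidate, from case B. -/
theorem profile_eq_candidate_of_caseB (hB : StmtCaseB) :
    ∀ V ∈ Set.Ioo (0 : ℝ) 1, profile V = ENNReal.ofReal (candidate V) :=
  profile_eq_candidate_of_smoothIso (smoothIso_of_caseB hB)

end Vale.Agent.P232

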