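import Vale.Agent.P232.Interfaces

/-!
# P232: integration over the cube of periodic functions

Integrals over the cube of periodic functions are invariant under translations; hence the integral
of a partial derivative of a periodic Lipschitz function vanishes, and periodic Lipschitz functions
can be integrated by parts against test fields.
-/

open MeasureTheory Set Filter
open scoped Topology Pointwise

namespace Vale.Agent.P232

theorem IsPeriodic.comp {α β : Type*} {f : R3 → α} (hf : IsPeriodic f) (g : α → β) :
    IsPeriodic (g ∘ f) := fun x k => congrArg g (hf x k)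

theorem IsPeriodic.op₂ {α β γ : Type*} {f : R3 → α} {g : R3 → β} (hf : IsPeriodic f)
    (hg : IsPeriodic g) (F : α → β → γ) : IsPeriodic fun x => F (f x) (g x) := fun x k => by
  show F (f _) (g _) = _
  rw [hf x k, hg x k]

theorem IsPeriodic.comp_add {α : Type*} {f : R3 → α} (hf : IsPeriodic f) (a : R3) :
    IsPeriodic fun x => f (x + a) := fun x k => by
  show f (x + (fun i => (k i : ℝ)) + a) = f (x + a)
  rw [add_right_comm]
  exact hf _ k

theorem isCompact_cube : IsCompact cube := isCompact_Icc

theorem measurableSet_cube : MeasurableSet cube := measurableSet_Icc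

theorem volume_cube : volume cube = 1 := by
  rw [cube, Real.volume_Icc_pi]
  simp

theorem volume_real_cube : volume.real cube = 1 := by rw [Measure.real, volume_cube]; rfl

instance : IsFiniteMeasure (volume.restrict cube) :=
  ⟨by rw [Measure.restrict_apply_univ, volume_cube]; exact ENNReal.one_lt_top⟩

/-- The translate of the cube by `a`. -/
def cubeAt (a : R3) : Set R3 := Set.Icc a (a + 1)

theorem cubeAt_zero : cubeAt 0 = cube := by simp [cubeAt, cube]

/-- The integer lattice. -/
noncomputable abbrev lattice : AddSubgroup R3 :=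
  (Submodule.span ℤ (Set.range (Pi.basisFun ℝ (Fin 3)))).toAddSubgroup

theorem IsPeriodic.lattice_vadd {α : Type*} {f : R3 → α} (hf : IsPeriodic f) (g : lattice)
    (x : R3) : f (g +ᵥ x) = f x := by
  obtain ⟨g, hg⟩ := g
  have hg' : g ∈ Submodule.span ℤ (Set.range (Pi.basisFun ℝ (Fin 3))) := hg
  have h := ((Pi.basisFun ℝ (Fin 3)).mem_span_iff_repr_mem ℤ g).1 hg'
  choose k hk using h
  show f (g + x) = f x
  have e : g = fun i => (k i : ℝ) := funext fun i => by simpa using (hk i).symm
  rw [add_comm, e]
  exact hf x k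

instance : Countable lattice :=
  inferInstanceAs (Countable (Submodule.span ℤ (Set.range (Pi.basisFun ℝ (Fin 3)))))

/-- Periodic functions have the same integral over all translates of the cube. -/
theorem setIntegral_cubeAt {E : Type*} [NormedAddCommGroup E] [NormedSpace ℝ E] {f : R3 → E}
    (hf : IsPeriodic f) (a : R3) : ∫ x in cubeAt a, f x = ∫ x in cube, f x := by
  have hfd : IsAddFundamentalDomain lattice (Set.pi univ fun _ : Fin 3 => Ico (0 : ℝ) 1) := by
    rw [← ZSpan.fundamentalDomain_pi_basisFun]
    exact ZSpan.isAddFundamentalDomain' _ _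
  have ae : ∀ b : R3, Set.pi univ (fun i : Fin 3 => Ico (b i) (b i + 1)) =ᵐ[volume] cubeAt b :=
    fun b => Measure.univ_pi_Ico_ae_eq_Icc
  have e : a +ᵥ Set.pi univ (fun _ : Fin 3 => Ico (0 : ℝ) 1) =
      Set.pi univ (fun i : Fin 3 => Ico (a i) (a i + 1)) := by
    ext x
    rw [Set.mem_vadd_set_iff_neg_vadd_mem]
    simp only [Set.mem_pi, Set.mem_univ, forall_const, vadd_eq_add, Pi.add_apply, Pi.neg_apply,
      Set.mem_Ico]
    refine forall_congr' fun i => ?_
    constructor <;> rintro ⟨h1, h2⟩ <;> constructor <;> linarith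
  have h := (hfd.vadd_of_comm a).setIntegral_eq hfd hf.lattice_vadd
  rw [e, setIntegral_congr_set (ae a)] at h
  rw [h, ← cubeAt_zero]
  refine setIntegral_congr_set ?_
  simpa using ae 0

theorem setIntegral_comp_add {E : Type*} [NormedAddCommGroup E] [NormedSpace ℝ E] {f : R3 → E}
    (hf : IsPeriodic f) (a : R3) : ∫ x in cube, f (x + a) = ∫ x in cube, f x := by
  conv_rhs => rw [← setIntegral_cubeAt hf a]
  have h := (measurePreserving_add_right (volume : Measure R3) a).setIntegral_preimage_emb
    (measurableEmbedding_addRight a) f (cubeAt a)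
  rw [← h]
  refine setIntegral_congr_set (Filter.EventuallyEq.of_eq ?_)
  simp only [cubeAt, cube, Set.preimage_add_const_Icc, sub_self, add_sub_cancel_left]
  rfl

theorem abs_apply_le (L : R3 →L[ℝ] ℝ) (i : Fin 3) : |L (Pi.single i 1)| ≤ ‖L‖ := by
  have h := L.le_opNorm (Pi.single i 1)
  rwa [Pi.norm_single, norm_one, mul_one, Real.norm_eq_abs] at h

/-- The integral of a derivative of a periodic Lipschitz function vanishes. -/
theorem integral_fderiv_eq_zero {u : R3 → ℝ} {L : NNReal} (hu : LipschitzWith L u)
    (hp : IsPeriodic u) (v : R3) : ∫ x in cube, fderiv ℝ u x v = 0 := by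
  have hlim : Tendsto (fun t : ℝ => ∫ x in cube, t⁻¹ • (u (x + t • v) - u x)) (𝓝[>] 0)
      (𝓝 (∫ x in cube, fderiv ℝ u x v)) := by
    refine tendsto_integral_filter_of_dominated_convergence (fun _ => L * ‖v‖) ?_ ?_
      (integrable_const _) ?_
    · have := hu.continuous
      exact Eventually.of_forall fun t => Continuous.aestronglyMeasurable (by fun_prop)
    · filter_upwards [self_mem_nhdsWithin] with t (ht : 0 < t)
      refine Eventually.of_forall fun x => ?_
      rw [norm_smul, norm_inv, Real.norm_eq_abs t, abs_of_pos ht, inv_mul_le_iff₀ ht]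
      have h := hu.dist_le_mul (x + t • v) x
      rw [dist_eq_norm, dist_eq_norm, add_sub_cancel_left, norm_smul, Real.norm_eq_abs t,
        abs_of_pos ht] at h
      linarith
    · filter_upwards [ae_restrict_of_ae hu.ae_differentiableAt] with x hx
      exact (hx.hasFDerivAt.hasLineDerivAt v).tendsto_slope_zero_right
  refine tendsto_nhds_unique hlim (tendsto_const_nhds.congr fun t => ?_)
  have hi : ∀ g : R3 → ℝ, Continuous g → IntegrableOn g cube :=
    fun g hg => hg.continuousOn.integrableOn_compact isCompact_cube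
  have := hu.continuous
  rw [integral_smul, integral_sub (hi (fun x => u (x + t • v)) (by fun_prop))
    (hi _ hu.continuous), setIntegral_comp_add hp]
  simp

/-- A periodic `C¹` function is bounded and Lipschitz. -/
theorem IsPeriodic.exists_lipschitz {E : Type*} [NormedAddCommGroup E] [NormedSpace ℝ E]
    {f : R3 → E} (hf : IsPeriodic f) (hc : ContDiff ℝ 1 f) :
    ∃ C : NNReal, LipschitzWith C f ∧ ∀ x, ‖f x‖ ≤ C := by
  have floor_mem : ∀ x : R3, x + (fun i => ((-⌊x i⌋ : ℤ) : ℝ)) ∈ cube := fun x => by
    refine ⟨fun i => ?_, fun i => ?_⟩ <;>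
      simp only [Pi.add_apply, Pi.zero_apply, Pi.one_apply, Int.cast_neg] <;>
      linarith [Int.floor_le (x i), Int.lt_floor_add_one (x i)]
  obtain ⟨C, hC⟩ := isCompact_cube.exists_bound_of_continuousOn
    (hc.continuous_fderiv one_ne_zero).continuousOn
  obtain ⟨D, hD⟩ := isCompact_cube.exists_bound_of_continuousOn hc.continuous.continuousOn
  have hdp : IsPeriodic (fderiv ℝ f) := fun x k => by
    rw [← fderiv_comp_add_right]
    exact congrArg (fun g : R3 → E => fderiv ℝ g x) (funext fun y => hf y k)
  refine ⟨(max C D).toNNReal, lipschitzWith_of_nnnorm_fderiv_le (hc.differentiable one_ne_zero)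
    fun x => ?_, fun x => ?_⟩
  · rw [← hdp x fun i => -⌊x i⌋, ← norm_toNNReal]
    exact Real.toNNReal_le_toNNReal ((hC _ (floor_mem x)).trans (le_max_left _ _))
  · rw [← hf x fun i => -⌊x i⌋]
    exact ((hD _ (floor_mem x)).trans (le_max_right _ _)).trans (Real.le_coe_toNNReal _)

theorem gradNorm_nonneg (f : R3 → ℝ) (x : R3) : 0 ≤ gradNorm f x := Real.sqrt_nonneg _

theorem measurable_gradNorm (f : R3 → ℝ) : Measurable (gradNorm f) := by
  unfold gradNorm pd
  exact (Finset.measurable_sum _ fun i _ =>
    (measurable_fderiv_apply_const ℝ f _).pow_const 2).sqrt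

theorem integrableOn_gradNorm {L : NNReal} {f : R3 → ℝ} (hf : LipschitzWith L f) :
    IntegrableOn (gradNorm f) cube := by
  refine Integrable.mono' (integrable_const (Real.sqrt (∑ _i : Fin 3, (L : ℝ) ^ 2)))
    (measurable_gradNorm f).aestronglyMeasurable (Eventually.of_forall fun x => ?_)
  rw [Real.norm_eq_abs, abs_of_nonneg (gradNorm_nonneg f x)]
  refine Real.sqrt_le_sqrt (Finset.sum_le_sum fun i _ => sq_le_sq.2 ?_)
  rw [NNReal.abs_eq]
  exact (abs_apply_le _ i).trans (norm_fderiv_le_of_lipschitz ℝ hf)

theorem TestField.abs_le_one {φ : R3 → R3} (hφ : TestField φ) (x : R3) (i : Fin 3) :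
    |φ x i| ≤ 1 := by
  refine (sq_le_one_iff_abs_le_one _).1 (le_trans ?_ (hφ.2.2 x))
  exact Finset.single_le_sum (f := fun j => φ x j ^ 2) (fun j _ => sq_nonneg _) (Finset.mem_univ i)

theorem sum_mul_le {a b : Fin 3 → ℝ} (hb : ∑ i, b i ^ 2 ≤ 1) :
    ∑ i, a i * b i ≤ Real.sqrt (∑ i, a i ^ 2) :=
  (Real.sum_mul_le_sqrt_mul_sqrt Finset.univ a b).trans
    (mul_le_of_le_one_right (Real.sqrt_nonneg _) (Real.sqrt_le_one.2 hb))

theorem continuous_divg {φ : R3 → R3} (hc : ContDiff ℝ 1 φ) : Continuous (divg φ) :=
  continuous_finsetSum _ fun i _ =>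
    (continuous_apply i).comp ((hc.continuous_fderiv one_ne_zero).clm_apply continuous_const)

theorem isPeriodic_divg {φ : R3 → R3} (hp : IsPeriodic φ) : IsPeriodic (divg φ) := fun x k => by
  unfold divg
  refine Finset.sum_congr rfl fun i _ => ?_
  rw [← fderiv_comp_add_right]
  exact congrArg (fun g : R3 → R3 => fderiv ℝ g x (Pi.single i 1) i) (funext fun y => hp y k)

theorem fderiv_component {φ : R3 → R3} (hc : ContDiff ℝ 1 φ) (i : Fin 3) (x v : R3) :
    fderiv ℝ (fun y => φ y i) x v = fderiv ℝ φ x v i := by
  rw [fderiv_apply ((hc.differentiable one_ne_zero) x)]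
  rfl

/-- Integration by parts on the torus against a test field. -/
theorem integral_mul_divg {L : NNReal} {f : R3 → ℝ} (hf : LipschitzWith L f) (hp : IsPeriodic f)
    {φ : R3 → R3} (hφ : TestField φ) :
    ∫ x in cube, f x * divg φ x = -∫ x in cube, ∑ i, pd f i x * φ x i := by
  have hφi : ∀ i, ContDiff ℝ 1 fun y => φ y i := fun i => contDiff_pi.1 hφ.1 i
  have hI1 : Integrable (fun x => f x * divg φ x) (volume.restrict cube) :=
    (hf.continuous.mul (continuous_divg hφ.1)).continuousOn.integrableOn_compact isCompact_cube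
  have hI2 : ∀ i, Integrable (fun x => pd f i x * φ x i) (volume.restrict cube) := fun i => by
    refine Integrable.mono' (integrable_const (L : ℝ))
      ((measurable_fderiv_apply_const ℝ f _).mul
        ((measurable_pi_apply i).comp hφ.1.continuous.measurable)).aestronglyMeasurable
      (Eventually.of_forall fun x => ?_)
    rw [norm_mul, Real.norm_eq_abs, Real.norm_eq_abs]
    exact (mul_le_mul ((abs_apply_le _ i).trans (norm_fderiv_le_of_lipschitz ℝ hf))
      (hφ.abs_le_one x i) (abs_nonneg _) L.2).trans (mul_one _).le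
  have hI3 : ∀ i, Integrable (fun x => f x * fderiv ℝ φ x (Pi.single i 1) i)
      (volume.restrict cube) := fun i =>
    (hf.continuous.mul ((continuous_apply i).comp
      ((hφ.1.continuous_fderiv one_ne_zero).clm_apply
        continuous_const))).continuousOn.integrableOn_compact isCompact_cube
  have key : ∀ i, ∫ x in cube,
      (f x * fderiv ℝ φ x (Pi.single i 1) i + pd f i x * φ x i) = 0 := fun i => by
    have hpi : IsPeriodic fun y => φ y i := hφ.2.1.comp fun z => z i
    obtain ⟨C, hC, hCb⟩ := hpi.exists_lipschitz (hφi i)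
    obtain ⟨D, hD⟩ := isCompact_cube.exists_bound_of_continuousOn hf.continuous.continuousOn
    have hfb : ∀ x, ‖f x‖ ≤ D := fun x => by
      rw [← hp x fun i => -⌊x i⌋]
      refine hD _ ⟨fun i => ?_, fun i => ?_⟩ <;>
        simp only [Pi.add_apply, Pi.zero_apply, Pi.one_apply, Int.cast_neg] <;>
        linarith [Int.floor_le (x i), Int.lt_floor_add_one (x i)]
    have hprod : LipschitzWith (D.toNNReal * C + C * L) (fun x => f x * φ x i) := by
      refine LipschitzWith.of_dist_le_mul fun x y => ?_
      rw [Real.dist_eq, NNReal.coe_add, NNReal.coe_mul, NNReal.coe_mul]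
      have h1 : |f x - f y| ≤ L * dist x y := hf.dist_le_mul x y
      have h2 : |φ x i - φ y i| ≤ C * dist x y := hC.dist_le_mul x y
      have h3 : |f x| ≤ (D.toNNReal : ℝ) := (hfb x).trans (Real.le_coe_toNNReal _)
      have h4 : |φ y i| ≤ C := hCb y
      calc |f x * φ x i - f y * φ y i| = |f x * (φ x i - φ y i) + φ y i * (f x - f y)| := by
            congr 1; ring
        _ ≤ |f x| * |φ x i - φ y i| + |φ y i| * |f x - f y| := by
            rw [← abs_mul, ← abs_mul]; exact abs_add_le _ _
        _ ≤ D.toNNReal * (C * dist x y) + C * (L * dist x y) := by gcongr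
        _ = _ := by ring
    have h := integral_fderiv_eq_zero hprod (hp.op₂ hpi (· * ·)) (Pi.single i 1)
    refine Eq.trans (integral_congr_ae ?_) h
    filter_upwards [ae_restrict_of_ae hf.ae_differentiableAt] with x hx
    rw [fderiv_fun_mul hx ((hφi i).differentiable one_ne_zero x)]
    simp only [add_apply, smul_apply, smul_eq_mul, pd,
      fderiv_component hφ.1]
    ring
  rw [eq_neg_iff_add_eq_zero, ← integral_add hI1 (integrable_finsetSum _ fun i _ => hI2 i)]
  simp only [divg, Finset.mul_sum, ← Finset.sum_add_distrib]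
  rw [integral_finsetSum _ fun i _ => (hI3 i).fun_add (hI2 i)]
  exact Finset.sum_eq_zero fun i _ => key i

/-- The flux of a test field through the levels of `f` is at most the total gradient. -/
theorem integral_mul_divg_le {L : NNReal} {f : R3 → ℝ} (hf : LipschitzWith L f)
    (hp : IsPeriodic f) {φ : R3 → R3} (hφ : TestField φ) :
    ∫ x in cube, f x * divg φ x ≤ ∫ x in cube, gradNorm f x := by
  rw [integral_mul_divg hf hp hφ, ← integral_neg]
  have hb : ∀ x, ∑ i, (-φ x i) ^ 2 ≤ 1 := fun x => by simpa using hφ.2.2 x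
  refine integral_mono_ae ?_ (integrableOn_gradNorm hf) ?_
  · exact (integrable_finsetSum _ fun i _ => by
      refine Integrable.mono' (integrable_const (L : ℝ))
        ((measurable_fderiv_apply_const ℝ f _).mul
          ((measurable_pi_apply i).comp hφ.1.continuous.measurable)).aestronglyMeasurable
        (Eventually.of_forall fun x => ?_)
      rw [norm_mul, Real.norm_eq_abs, Real.norm_eq_abs]
      exact (mul_le_mul ((abs_apply_le _ i).trans (norm_fderiv_le_of_lipschitz ℝ hf))
        (hφ.abs_le_one x i) (abs_nonneg _) L.2).trans (mul_one _).le).neg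
  · refine Eventually.of_forall fun x => ?_
    show -∑ i, pd f i x * φ x i ≤ _
    rw [← Finset.sum_neg_distrib]
    simp only [← mul_neg]
    exact sum_mul_le (hb x)

end Vale.Agent.P232
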