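import Mathlib

/-!
# P232: the pointwise identity behind polarisation

At a point where `u`, `v`, their maximum and their minimum are differentiable, the differentials
of the maximum and of the minimum are those of `u` and `v` in some order. Hence polarisation
preserves `∫ F (∇ f)` for every `F` invariant under the reflection.
-/

open Filter
open scoped Topology

namespace Vale.Agent.P232

variable {E : Type*} [NormedAddCommGroup E] [NormedSpace ℝ E] {u v : E → ℝ} {x : E}

theorem fderiv_eq_of_le_of_eq {f g : E → ℝ} (hf : DifferentiableAt ℝ f x)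
    (hg : DifferentiableAt ℝ g x) (h : ∀ y, f y ≤ g y) (he : f x = g x) :
    fderiv ℝ f x = fderiv ℝ g x := by
  have hmin : IsLocalMin (g - f) x :=
    Eventually.of_forall fun y => by simp only [Pi.sub_apply, he, sub_self]; linarith [h y]
  have := hmin.fderiv_eq_zero
  rw [fderiv_sub hg hf, sub_eq_zero] at this
  exact this.symm

/-- The differentials of `max u v` and `min u v` are those of `u` and `v` in some order. -/
theorem fderiv_max_min (hu : DifferentiableAt ℝ u x) (hv : DifferentiableAt ℝ v x)
    (hM : DifferentiableAt ℝ (fun y => max (u y) (v y)) x)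
    (hm : DifferentiableAt ℝ (fun y => min (u y) (v y)) x) :
    (fderiv ℝ (fun y => max (u y) (v y)) x = fderiv ℝ u x ∧
        fderiv ℝ (fun y => min (u y) (v y)) x = fderiv ℝ v x) ∨
      (fderiv ℝ (fun y => max (u y) (v y)) x = fderiv ℝ v x ∧
        fderiv ℝ (fun y => min (u y) (v y)) x = fderiv ℝ u x) := by
  rcases le_total (v x) (u x) with h | h
  · exact .inl ⟨(fderiv_eq_of_le_of_eq hu hM (fun y => le_max_left _ _) (max_eq_left h).symm).symm,
      fderiv_eq_of_le_of_eq hm hv (fun y => min_le_right _ _) (min_eq_right h)⟩
  · exact .inr ⟨(fderiv_eq_of_le_of_eq hv hM (fun y => le_max_right _ _) (max_eq_right h).symm).symm,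
      fderiv_eq_of_le_of_eq hm hu (fun y => min_le_left _ _) (min_eq_left h)⟩

end Vale.Agent.P232
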