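import Vale.Agent.P232.Upper
import Vale.Agent.P232.Lower

/-!
# P232: sanity properties of the definitions

The candidate is positive, competitors exist, the profile is finite, and a set and its complement
have the same perimeter.
-/

open MeasureTheory Set
open scoped ENNReal

namespace Vale.Agent.P232

theorem candidate_pos {V : ℝ} (h : V ∈ Set.Ioo (0 : ℝ) 1) : 0 < candidate V := by
  have hv : 0 < min V (1 - V) := lt_min h.1 (by linarith [h.2])
  unfold candidate
  refine lt_min (lt_min ?_ ?_) two_pos <;> positivity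

theorem candidate_symm (V : ℝ) : candidate (1 - V) = candidate V := by
  simp only [candidate, sub_sub_cancel, min_comm]

theorem candidate_half : candidate (1 / 2) = 2 := by
  have hv : min (1 / 2 : ℝ) (1 - 1 / 2) = 1 / 2 := by norm_num
  rw [candidate, hv, min_eq_right]
  refine le_min ?_ ?_
  · refine (pow_le_pow_iff_left₀ two_pos.le (by positivity) (three_ne_zero (α := ℕ))).1 ?_
    have hx : ∀ x : ℝ, 0 ≤ x → ∀ q : ℝ, (x ^ q) ^ 3 = x ^ (q * 3) := fun x hx q => by
      rw [← Real.rpow_natCast _ 3, ← Real.rpow_mul hx]; norm_num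
    rw [mul_pow, hx _ (by positivity), hx _ (by norm_num)]
    norm_num
    linarith [Real.pi_gt_three]
  · have h : 1 ≤ Real.sqrt (Real.pi * (1 / 2)) := Real.one_le_sqrt.2 (by linarith [Real.pi_gt_three])
    linarith

theorem profile_ne_top {V : ℝ} (h : V ∈ Set.Ioo (0 : ℝ) 1) : profile V ≠ ⊤ :=
  ne_top_of_le_ne_top ENNReal.ofReal_ne_top (stmtUpper V h)

theorem exists_competitor {V : ℝ} (h : V ∈ Set.Ioo (0 : ℝ) 1) :
    ∃ E, IsCompetitor E V ∧ perimeter E ≠ ⊤ := by
  obtain ⟨E, hE⟩ := iInf_lt_iff.1 (lt_top_iff_ne_top.2 (profile_ne_top h))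
  obtain ⟨hc, hlt⟩ := iInf_lt_iff.1 hE
  exact ⟨E, hc, hlt.ne⟩

theorem perimeter_compl {E : Set R3} (hE : MeasurableSet E) : perimeter Eᶜ = perimeter E :=
  le_antisymm (perimeter_compl_le hE) (by simpa using perimeter_compl_le hE.compl)

theorem perimeter_empty : perimeter (∅ : Set R3) = 0 := by
  simp [perimeter]

end Vale.Agent.P232
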