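import Mathlib

/-!
# P232: the cubic torus, perimeter and isoperimetric profile

A subset of `T = ℝ³/ℤ³` is an invariant subset of `ℝ³` under integer translations, and its volume
and perimeter are taken in the fundamental cube. The perimeter is the De Giorgi supremum over `C¹`
periodic vector fields of Euclidean norm at most one.
-/

open MeasureTheory Set
open scoped ENNReal

namespace Vale.Agent.P232

/-- The coordinates of `ℝ³`; the Euclidean norm is written out. -/
abbrev R3 := Fin 3 → ℝ

/-- The fundamental cube. -/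
def cube : Set R3 := Set.Icc 0 1

/-- Invariance of a function under integer translations. -/
def IsPeriodic {α : Type*} (f : R3 → α) : Prop :=
  ∀ (x : R3) (k : Fin 3 → ℤ), f (x + fun i => (k i : ℝ)) = f x

/-- The divergence of a vector field. -/
noncomputable def divg (φ : R3 → R3) (x : R3) : ℝ :=
  ∑ i, fderiv ℝ φ x (Pi.single i 1) i

/-- The test fields of the perimeter. -/
def TestField (φ : R3 → R3) : Prop :=
  ContDiff ℝ 1 φ ∧ IsPeriodic φ ∧ ∀ x, ∑ i, φ x i ^ 2 ≤ 1

/-- The perimeter on the torus of a periodic set. -/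
noncomputable def perimeter (E : Set R3) : ℝ≥0∞ :=
  ⨆ (φ : R3 → R3) (_ : TestField φ), ENNReal.ofReal (∫ x in E ∩ cube, divg φ x)

/-- Measurable subsets of the torus with volume `V`. -/
def IsCompetitor (E : Set R3) (V : ℝ) : Prop :=
  MeasurableSet E ∧ IsPeriodic (fun x => x ∈ E) ∧ volume (E ∩ cube) = ENNReal.ofReal V

/-- The isoperimetric profile of the cubic torus. -/
noncomputable def profile (V : ℝ) : ℝ≥0∞ :=
  ⨅ (E : Set R3) (_ : IsCompetitor E V), perimeter E

/-- The least perimeter of a ball, a tube and a slab. -/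
noncomputable def candidate (V : ℝ) : ℝ :=
  min (min ((36 * Real.pi) ^ ((1 : ℝ) / 3) * (min V (1 - V)) ^ ((2 : ℝ) / 3))
    (2 * Real.sqrt (Real.pi * min V (1 - V)))) 2

theorem IsPeriodic.shift {α : Type*} {f : R3 → α} (hf : IsPeriodic f) (i : Fin 3) (x : R3) :
    f (x + Pi.single i 1) = f x := by
  have h := hf x (Pi.single i 1)
  convert h using 3
  ext j
  rcases eq_or_ne j i with rfl | hj
  · simp
  · simp [hj]

/-- The divergence of a periodic field has integral zero. -/
theorem integral_divg_eq_zero {φ : R3 → R3} (hc : ContDiff ℝ 1 φ) (hp : IsPeriodic φ) :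
    ∫ x in cube, divg φ x = 0 := by
  have hcont : Continuous (divg φ) := by
    unfold divg
    exact continuous_finsetSum _ fun i _ =>
      (continuous_apply i).comp ((hc.continuous_fderiv one_ne_zero).clm_apply continuous_const)
  have h := integral_divergence_of_hasFDerivAt_off_countable (E := ℝ) (n := 2) (0 : R3) 1
    (fun _ => zero_le_one) φ (fderiv ℝ φ) ∅ countable_empty hc.continuous.continuousOn
    (fun x _ => ((hc.differentiable one_ne_zero) x).hasFDerivAt)
    (hcont.continuousOn.integrableOn_compact isCompact_Icc)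
  refine h.trans (Finset.sum_eq_zero fun i _ => sub_eq_zero.2 ?_)
  refine integral_congr_ae (Filter.Eventually.of_forall fun y => ?_)
  have e : (i.insertNth ((1 : R3) i) y : R3) =
      (i.insertNth ((0 : R3) i) y : R3) + Pi.single i 1 := by
    ext j
    refine Fin.succAboveCases i ?_ (fun j => ?_) j
    · simp
    · simp [Fin.succAbove_ne]
  show φ (i.insertNth ((1 : R3) i) y : R3) i = φ (i.insertNth ((0 : R3) i) y : R3) i
  rw [e, hp.shift]

/-- The perimeter is at most a bound on the fluxes of all test fields. -/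
theorem perimeter_le {E : Set R3} {c : ℝ}
    (h : ∀ φ, TestField φ → ∫ x in E ∩ cube, divg φ x ≤ c) :
    perimeter E ≤ ENNReal.ofReal c :=
  iSup₂_le fun φ hφ => ENNReal.ofReal_le_ofReal (h φ hφ)

/-- Each test field bounds the perimeter from below. -/
theorem le_perimeter {E : Set R3} {φ : R3 → R3} (hφ : TestField φ) :
    ENNReal.ofReal (∫ x in E ∩ cube, divg φ x) ≤ perimeter E :=
  le_iSup₂ (f := fun φ _ => ENNReal.ofReal (∫ x in E ∩ cube, divg φ x)) φ hφ

/-- The Schmidt calibration of one slice: area plus a quarter disc of radius `R` is at most `R`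
times the length of the boundary curve `y = k x`, `0 ≤ x ≤ R`. -/
theorem slice_calibration {k k' : ℝ → ℝ} {R : ℝ} (hR : 0 ≤ R)
    (hd : ∀ x ∈ Set.Icc 0 R, HasDerivAt k (k' x) x) (hc : ContinuousOn k' (Set.Icc 0 R))
    (h0 : k R = 0) :
    (∫ x in (0 : ℝ)..R, k x) + ∫ x in (0 : ℝ)..R, Real.sqrt (R ^ 2 - x ^ 2) ≤
      R * ∫ x in (0 : ℝ)..R, Real.sqrt (1 + k' x ^ 2) := by
  have hu : Set.uIcc 0 R = Set.Icc 0 R := Set.uIcc_of_le hR
  have hk : ContinuousOn k (Set.Icc 0 R) := fun x hx =>
    (hd x hx).continuousAt.continuousWithinAt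
  have hparts : ∫ x in (0 : ℝ)..R, x * k' x = -∫ x in (0 : ℝ)..R, k x := by
    rw [intervalIntegral.integral_mul_deriv_eq_deriv_mul (u := fun x => x) (u' := fun _ => (1 : ℝ))
      (fun x _ => hasDerivAt_id x) (fun x hx => hd x (hu ▸ hx)) intervalIntegrable_const
      (hc.intervalIntegrable_of_Icc hR)]
    simp [h0]
  have i1 : IntervalIntegrable (fun x => -(x * k' x)) volume 0 R :=
    ((continuousOn_id.mul hc).neg).intervalIntegrable_of_Icc hR
  have i2 : IntervalIntegrable (fun x => Real.sqrt (R ^ 2 - x ^ 2)) volume 0 R :=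
    (Continuous.intervalIntegrable (by fun_prop) _ _)
  have i3 : IntervalIntegrable (fun x => R * Real.sqrt (1 + k' x ^ 2)) volume 0 R :=
    (continuousOn_const.mul ((continuousOn_const.add (hc.pow 2)).sqrt)).intervalIntegrable_of_Icc hR
  have e : (∫ x in (0 : ℝ)..R, k x) = ∫ x in (0 : ℝ)..R, -(x * k' x) := by
    rw [intervalIntegral.integral_neg, hparts, neg_neg]
  rw [e, ← intervalIntegral.integral_add i1 i2, ← intervalIntegral.integral_const_mul]
  refine intervalIntegral.integral_mono_on hR (i1.add i2) i3 fun x hx => ?_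
  have hs : 0 ≤ R ^ 2 - x ^ 2 := by nlinarith [hx.1, hx.2]
  have hS := Real.sq_sqrt hs
  have hR' : R * Real.sqrt (1 + k' x ^ 2) = Real.sqrt (R ^ 2 * (1 + k' x ^ 2)) := by
    rw [Real.sqrt_mul (sq_nonneg R), Real.sqrt_sq hR]
  rw [hR']
  refine Real.le_sqrt_of_sq_le ?_
  nlinarith [sq_nonneg (Real.sqrt (R ^ 2 - x ^ 2) * k' x + x)]

end Vale.Agent.P232
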